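import Vale.Agent.P073Y.St3.Sk
import Vale.Agent.P073Y.St.Eng

/-!
# The engine in the site, with bounds on the three-cells
-/

open Set Metric Topology Filter MeasureTheory
open scoped NNReal ENNReal

namespace P073.St3

open P073.Bd (Band cl Chart PwLip Gen1)
open P073.Top
open P073.St (Api Dim SHP Same stp Drf lv pts)
open P073.St.EngA

theorem eng_of {c₀ : ℝ≥0} {p : ℝ} (hA : Api) (hD : Dim) (hR : RAW) (hS : SQR)
    (hrun : Wh.RUNH c₀ 120000) (hshp : SHP) (hp : 1 ≤ p) : ENG p := by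
  classical
  refine ⟨24 * 120000, max c₀ 120000, by norm_num, ?_⟩
  intro Ω Λ S g lo hi o J Bf Y θ A d b 𝓢 ψ a h0 h1 hd hm hfit
  set c' : ℝ≥0 := max c₀ 120000 with hc'
  have := Y.fin
  have hd0 := hd.pos
  let lam : ℝ≥0 := ⟨d / 20, by positivity⟩
  have hlam : (lam : ℝ) = d / 20 := rfl
  let θ' : ℝ≥0 := ⟨θ, h0.le⟩
  have hθ' : (θ' : ℝ) = θ := rfl
  let len : Y.K.ι → ℝ≥0 := fun e => ⟨diam (Y.K.cell e), diam_nonneg⟩
  let lp : Y.K.ι → ℝ≥0 := fun c => (lipc g.toFun (Y.K.cell c)).toNNReal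
  have hsub : ∀ c, Y.K.cell c ⊆ St.pre g (Icc lo hi) := fun c =>
    Y.carrier ▸ Y.K.cell_subset_carrier c
  have hlp : ∀ c, (lp c : ℝ≥0∞) = lipc g.toFun (Y.K.cell c) := fun c =>
    ENNReal.coe_toNNReal (hA.fin (Y.K.isCompact_cell c) (Y.K.locCone_cell c)
      ⟨g.cont.mono fun x hx => (hsub c hx).1, g.conical.mono
        (Y.K.locCone_cell c).conicalSet fun x hx => (hsub c hx).1⟩)
  obtain ⟨L, L₀, hL, hL₀, hF⟩ := exists_L Y.K fun c B => if c ∈ Y.fro then lp c / lam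
    else if Y.K.dim c ≤ 1 then 32 * Y.cnt A c / (θ' * len c)
    else c' / (6 * θ') * Y.M₁ c * (Y.M₂ c * B + Y.cnt A c + 1)
  have L1 : ∀ c ∈ Y.fro, (L c : ℝ) = lp c / (d / 20) := fun c hc => by
    rw [hF c, if_pos hc, NNReal.coe_div, hlam]
  have L2 : ∀ c, c ∉ Y.fro → Y.K.dim c = 1 →
      (L c : ℝ) = 32 * Y.cnt A c / (θ * diam (Y.K.cell c)) := fun c hc h => by
    rw [hF c, if_neg hc, if_pos h.le]
    push_cast
    rfl
  have L3 : ∀ c, c ∉ Y.fro → 2 ≤ Y.K.dim c →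
      (L c : ℝ) = c' / (6 * θ) * Y.M₁ c * (Y.M₂ c * L₀ c + Y.cnt A c + 1) := fun c hc h => by
    rw [hF c, if_neg hc, if_neg (by omega)]
    push_cast
    rfl
  have L4 : ∀ c, c ∉ Y.fro → 2 ≤ Y.K.dim c →
      (c' : ℝ) * Y.M₁ c * (Y.M₂ c * L₀ c + Y.cnt A c + 1) = 6 * θ * L c := fun c hc h => by
    rw [L3 c hc h]
    field_simp
  obtain ⟨hpts, w, hw⟩ := hR Y A d L L₀ hL c₀ lam hd hlam (fun c hc => by
      refine hA.le_iff.1 ?_
      rw [hF c, if_pos hc, mul_div_cancel₀ _ (by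
        rw [← NNReal.coe_ne_zero, hlam]; positivity), hlp]) fun c h hc => by
    rw [← NNReal.coe_le_coe]
    push_cast
    have e1 := L4 c hc h
    have e2 : (c₀ : ℝ) ≤ c' := NNReal.coe_le_coe.2 (le_max_left _ _)
    have e3 : (c₀ : ℝ) * Y.M₁ c * (Y.M₂ c * L₀ c + Y.cnt A c) ≤
        c' * Y.M₁ c * (Y.M₂ c * L₀ c + Y.cnt A c + 1) :=
      mul_le_mul (by gcongr) (by linarith) (by positivity) (by positivity)
    nlinarith [(L c).2]
  let 𝓣 : Set Y.K.ι := {j | ∃ φ, (φ ∈ 𝓢 ∧ Deep g.toFun (S.Q.cell φ) lo hi (2 * o)) ∧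
    ∃ χ, Sqf Y θ φ (ψ φ) (a φ) j χ}
  have h𝓣 : ∀ j ∈ 𝓣, ∃ φ, (φ ∈ 𝓢 ∧ Deep g.toFun (S.Q.cell φ) lo hi (2 * o)) ∧
    ∃ χ, Sqf Y θ φ (ψ φ) (a φ) j χ := fun j hj => hj
  choose ph hph χ hχ using h𝓣
  have hdim : ∀ j ∈ 𝓣, Y.K.dim j = 2 := fun j hj =>
    (hχ j hj).same.2.2.trans (hm _ (hph j hj).1).dim
  let Lm : Y.K.ι → ℝ≥0 := fun j => if h : j ∈ 𝓣 then (2 * a (ph j h) / d * (1 + 3 * θ)).toNNReal
    else 2 * Y.cnt A j * (1 + θ' / 4) / len j
  have M1 : ∀ j (h : j ∈ 𝓣), (Lm j : ℝ) = 2 * a (ph j h) / d * (1 + 3 * θ) := fun j h => by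
    have := (hm _ (hph j h).1).pos
    simp only [Lm, dif_pos h]
    exact Real.coe_toNNReal _ (by positivity)
  have M2 : ∀ e, Y.K.dim e = 1 →
      (Lm e : ℝ) = 2 * Y.cnt A e * (1 + θ / 4) / diam (Y.K.cell e) := fun e he => by
    simp only [Lm, dif_neg fun h => by have := hdim e h; omega]
    push_cast
    rfl
  have hcnt : ∀ e, Y.K.dim e = 1 → (pts g lo hi A ∩ Y.K.cell e).ncard = Y.cnt A e :=
    fun e he => by
      rw [Site.cnt, inter_assoc, inter_eq_right.2 (Y.K.cell_subset_skel he.le)]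
  obtain ⟨G, u₀, q1, q2, q3, q4, q5, q6, q7, -⟩ := hrun (Y.base A L L₀ hL) Y.gC (lv A) lam Y.fro w
    Lm (fun c => c' * Y.M₁ c * (Y.M₂ c * L₀ c + 1)) (θ / 4) (6 * θ) 𝓣 χ hw
    (by positivity) (by linarith) (by positivity) (by linarith)
    (fun e he hf => by
      obtain ⟨⟨x, y, hxy⟩, h⟩ := hD.seg Y.K e he (Y.cvx e)
      obtain ⟨hne, hb, hdi⟩ := h x y hxy
      have hpos : 0 < dist x y := dist_pos.2 hne
      refine ⟨x, y, hxy, hb, ?_, ?_⟩
      · rw [hpts]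
        change 8 * ((pts g lo hi A ∩ Y.K.cell e).ncard : ℝ) ≤ θ / 4 * L e * dist x y
        rw [hcnt e he, L2 e hf he, hdi]
        refine le_of_eq ?_
        field_simp
        ring
      · rw [hpts]
        change 2 * ((pts g lo hi A ∩ Y.K.cell e).ncard : ℝ) * (1 + θ / 4) ≤ Lm e * dist x y
        rw [hcnt e he, M2 e he, hdi]
        refine le_of_eq ?_
        field_simp)
    (fun j h => by
      have q := hχ j h
      have hf := q.free j Subset.rfl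
      have ha := (hm _ (hph j h).1).pos
      obtain ⟨f1, f2⟩ := hfit _ (hph j h).1 (hph j h).2
      refine ⟨hdim j h, fun hU => hf (Y.froU j hU), fun e he _ => q.free e he, q.bd, q.lip,
        q.lip', q.corner, fun e he hs => ?_, ?_, ?_⟩
      · obtain ⟨x, y, e', -, hxy, -, hl⟩ := q.wire e he hs
        obtain ⟨hne, -, hdi⟩ := (hD.seg Y.K e he (hxy ▸ convex_segment x y)).2 x y hxy
        have hpos : 0 < dist x y := dist_pos.2 hne
        refine ⟨_, hl, ?_⟩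
        rw [← NNReal.coe_le_coe]
        push_cast
        rw [M1 j h, M2 e he, hdi]
        have e1 := f2 e he (q.same.1 ▸ hs)
        have e2 : 2 * (Y.cnt A e : ℝ) * (1 + θ / 4) / dist x y * (dist x y / 2) =
            Y.cnt A e * (1 + θ / 4) := by field_simp
        rw [e2, div_mul_eq_mul_div, le_div_iff₀ hd0]
        linarith
      · rw [M1 j h, div_mul_eq_mul_div, ← mul_div_assoc, le_div_iff₀ hd0]
        nlinarith [mul_pos h0 ha, mul_pos (mul_pos h0 ha) h0]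
      · rw [hpts]
        change ((120000 : ℝ≥0) : ℝ) * Y.M₁ j * (Y.M₂ j * L₀ j + Y.cnt A j + 1) ≤ 6 * θ * L j
        rw [← L4 j hf (hdim j h).ge]
        have e2 : ((120000 : ℝ≥0) : ℝ) ≤ c' := NNReal.coe_le_coe.2 (le_max_right _ _)
        gcongr)
    (fun c _ _ => by
      change c₀ * Y.M₁ c * (Y.M₂ c * L₀ c + 1) ≤ c' * Y.M₁ c * (Y.M₂ c * L₀ c + 1)
      gcongr
      exact le_max_left _ _) Y.carrier
  rw [hpts] at q5
  let u : A 0 ⊕ A 1 → E3 → ℝ := u₀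
  replace q3 : ∀ (c : Y.K.ι) (s : Finset (A 0 ⊕ A 1)), (∀ i ∈ s, ∀ j ∈ s, i.isLeft = j.isLeft) →
      PwLip (4 * L c) (fun x => ∑ i ∈ s, u i x) (Y.K.cell c) := q3
  replace q5 : ∀ e, Y.K.dim e = 1 → e ∉ Y.fro →
      (∀ (s : Finset (A 0 ⊕ A 1)) (ε : A 0 ⊕ A 1 → ℝ), (∀ i, ε i = 1 ∨ ε i = -1) →
        PwLip (Lm e) (fun x => ∑ i ∈ s, ε i * u i x) (Y.K.cell e)) ∧
      ∀ x y, Y.K.cell e = segment ℝ x y → Y.K.bd e = {x, y} → ∀ s : Finset (A 0 ⊕ A 1),
        ∑ i ∈ s, |u i y - u i x| ≤ 2 * (Y.cnt A e : ℝ) := q5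
  replace q6 : ∀ j (h : j ∈ 𝓣), Fi.Shp (Fi.stair (fun i : A 0 ⊕ A 1 => if i.isLeft then 0 else 1)
      (fun _ => 1) fun i v => u i ((χ j h).invFun v)) (Lm j) (6 * θ) ((120000 : ℝ≥0) : ℝ) :=
    fun j h => @q6 j h (inferInstance : Fintype (A 0 ⊕ A 1))
  set H : E3 → E3 := St.cmp (fun k y => b k + stp (A k) d y) G.toFun with hH
  let U₀ : E3 → ℝ := fun x => ∑ t : A 0, u (Sum.inl t) x
  let U₁ : E3 → ℝ := fun x => ∑ t : A 1, u (Sum.inr t) x
  have H0 : ∀ x ∈ St.pre g (Icc lo hi), H x 0 = b 0 + d / 2 * (A 0).card + d / 2 * U₀ x :=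
    fun x hx => by
      simp only [hH, St.cmp, U₀, stp_eq _ d _ hlam, add_assoc]
      congr 3
      exact Finset.sum_congr rfl fun t _ => (q2 (Sum.inl t) x hx).symm
  have H1 : ∀ x ∈ St.pre g (Icc lo hi), H x 1 = b 1 + d / 2 * (A 1).card + d / 2 * U₁ x :=
    fun x hx => by
      simp only [hH, St.cmp, U₁, stp_eq _ d _ hlam, add_assoc]
      congr 3
      exact Finset.sum_congr rfl fun t _ => (q2 (Sum.inr t) x hx).symm
  have H2 : ∀ x, H x 2 = b 2 := fun x => by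
    simp only [hH, St.cmp, stp, hd.nil 2 Y.notJ, Finset.sum_empty, mul_zero, add_zero]
  have hgen : ∀ c (B : ℝ≥0), (∀ s : Finset (A 0 ⊕ A 1), (∀ i ∈ s, ∀ j ∈ s, i.isLeft = j.isLeft) →
      PwLip (4 * B) (fun x => ∑ i ∈ s, u i x) (Y.K.cell c)) →
      lipc H (Y.K.cell c) ≤ ENNReal.ofReal (2 * d * B) := fun c B q => by
    have a0 := Bd.lipg.1 (Y.cvx c) (q (Finset.univ.map Function.Embedding.inl) (by
      simp only [Finset.mem_map]
      rintro _ ⟨i, -, rfl⟩ _ ⟨j, -, rfl⟩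
      rfl))
    have a1 := Bd.lipg.1 (Y.cvx c) (q (Finset.univ.map Function.Embedding.inr) (by
      simp only [Finset.mem_map]
      rintro _ ⟨i, -, rfl⟩ _ ⟨j, -, rfl⟩
      rfl))
    simp only [Finset.sum_map] at a0 a1
    refine hA.le_of fun x hx y hy => ?_
    rw [edist_dist, edist_dist, ← ENNReal.ofReal_mul (by positivity)]
    refine ENNReal.ofReal_le_ofReal ((dist_pi_le_iff (by positivity)).2 fun k => ?_)
    have b0 : |U₀ x - U₀ y| ≤ 4 * B * dist x y := a0.dist_le_mul x hx y hy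
    have b1 : |U₁ x - U₁ y| ≤ 4 * B * dist x y := a1.dist_le_mul x hx y hy
    have hh : ∀ s t : ℝ, |s - t| ≤ 4 * B * dist x y → ∀ r, |r + d / 2 * s - (r + d / 2 * t)| ≤
        2 * d * B * dist x y := fun s t h r => by
      rw [add_sub_add_left_eq_sub, ← mul_sub, abs_mul, abs_of_pos (half_pos hd0)]
      nlinarith
    rw [Real.dist_eq]
    fin_cases k
    · change |H x 0 - H y 0| ≤ _
      rw [H0 x (hsub c hx), H0 y (hsub c hy)]
      exact hh _ _ b0 _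
    · change |H x 1 - H y 1| ≤ _
      rw [H1 x (hsub c hx), H1 y (hsub c hy)]
      exact hh _ _ b1 _
    · change |H x 2 - H y 2| ≤ _
      rw [H2, H2, sub_self, abs_zero]
      positivity
  have hlip : ∀ c, lipc H (Y.K.cell c) ≤ ENNReal.ofReal (2 * d * L c) := fun c =>
    hgen c _ (q3 c)
  have hsoft : ∀ e ∈ Y.fro, ∀ B : ℝ≥0, 20 * lipc g.toFun (Y.K.cell e) ≤ B → d * L e ≤ B :=
    fun e hef B h => by
      rw [← hlp] at h
      have : (20 : ℝ) * lp e ≤ B := by exact_mod_cast h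
      rw [L1 e hef]
      calc d * ((lp e : ℝ) / (d / 20)) = 20 * lp e := by field_simp
        _ ≤ B := this
  have hsup : ∀ j (B : ℝ≥0), (∀ e, Y.K.cell e ⊆ Y.K.cell j → Y.K.dim e + 1 = Y.K.dim j →
      d * L e ≤ B) → d * L₀ j ≤ B := fun j B h => by
    let d' : ℝ≥0 := ⟨d, hd0.le⟩
    have e0 : L₀ j ≤ B / d' := hL₀ j _ fun e he hde => by
      rw [← NNReal.coe_le_coe, NNReal.coe_div]
      change (L e : ℝ) ≤ B / d
      rw [le_div_iff₀ hd0, mul_comm]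
      exact h e (he.trans (Y.K.bd_subset j)) hde
    have : (L₀ j : ℝ) ≤ B / d := by exact_mod_cast e0
    rwa [le_div_iff₀ hd0, mul_comm] at this
  have hface : ∀ j (B : ℝ≥0), Y.K.dim j = 2 → j ∉ Y.fro → Wir Y θ A d j B →
      2 * d * L j ≤ c' / θ * Y.M₁ j * (Y.M₂ j * B + d * Y.cnt A j + d) := fun j B hj hf hB => by
    have e1 : d * L₀ j ≤ B := hsup j B fun e he hde => by
      have he1 : Y.K.dim e = 1 := by omega
      obtain ⟨s1, s2⟩ := hB e he1 he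
      by_cases hef : e ∈ Y.fro
      · exact hsoft e hef B (s1 hef)
      · obtain ⟨⟨x, y, hxy⟩, h⟩ := hD.seg Y.K e he1 (Y.cvx e)
        obtain ⟨hne, -, hdi⟩ := h x y hxy
        have hpos : 0 < dist x y := dist_pos.2 hne
        have := s2 hef x y hxy
        rw [L2 e hef he1, hdi, ← mul_div_assoc, div_le_iff₀ (by positivity)]
        linarith
    rw [L3 j hf hj.ge]
    calc 2 * d * (c' / (6 * θ) * Y.M₁ j * (Y.M₂ j * L₀ j + Y.cnt A j + 1))
        = 1 / 3 * (c' / θ * Y.M₁ j * (Y.M₂ j * (d * L₀ j) + d * Y.cnt A j + d)) := by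
          field_simp; ring
      _ ≤ 1 * (c' / θ * Y.M₁ j * (Y.M₂ j * B + d * Y.cnt A j + d)) := by gcongr; norm_num
      _ = _ := one_mul _
  have hdif : ∀ x ∈ St.pre g (Icc lo hi), ∀ y ∈ St.pre g (Icc lo hi),
      |H x 0 - H y 0| + |H x 1 - H y 1| = d / 2 * (|U₀ x - U₀ y| + |U₁ x - U₁ y|) := fun x hx y hy => by
    rw [H0 x hx, H0 y hy, H1 x hx, H1 y hy, add_sub_add_left_eq_sub, add_sub_add_left_eq_sub,
      ← mul_sub, ← mul_sub, abs_mul, abs_mul, abs_of_pos (half_pos hd0), mul_add]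
  refine ⟨G, fun x hx => (q1 hx).trans (by rw [Y.gC_eq]), fun x hx => ?_,
    fun x y => (H2 x).trans (H2 y).symm, fun j hj => ?_, fun j x y hj hf hxy => ?_,
    fun j B hj hf hB => (hlip j).trans (ENNReal.ofReal_le_ofReal (hface j B hj hf hB)),
    fun j B hj hf hB => ?_, fun φ hφ hdp => ?_⟩
  · obtain ⟨y, hy, e1, e2⟩ := q4 o Y.pos.le (by rw [Y.gC_eq]; exact Y.osc) x hx
    have hl : 2 * o + lam ≤ 3 * o := by rw [hlam]; linarith [hd.le]
    refine ⟨y, hy, by rwa [Y.gC_eq] at e1, fun k t ht κ hκ => ?_⟩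
    fin_cases k
    · refine e2 (Sum.inl ⟨t, ht⟩) κ ?_
      rintro (j | j) hj
      · exact hl.trans_lt (hκ j j.2)
      · exact absurd hj (by simp [Site.base])
    · refine e2 (Sum.inr ⟨t, ht⟩) κ ?_
      rintro (j | j) hj
      · exact absurd hj (by simp [Site.base])
      · exact hl.trans_lt (hκ j j.2)
    · exact absurd ht (by simp [hd.nil 2 Y.notJ])
  · refine (hlip j).trans (le_of_eq ?_)
    rw [L1 j hj, ← hlp, show 2 * d * ((lp j : ℝ) / (d / 20)) = ((40 * lp j : ℝ≥0) : ℝ) by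
      push_cast; field_simp; ring, ENNReal.ofReal_coe_nnreal]
    push_cast
    rfl
  · have hc := Y.cvx j
    obtain ⟨hne, hb, hdi⟩ := (hD.seg Y.K j hj hc).2 x y hxy
    have hpos : 0 < dist x y := dist_pos.2 hne
    obtain ⟨r1, r2⟩ := q5 j hj hf
    refine ⟨fun v hv z hz => ?_, ?_⟩
    · have a0 := (Bd.lipg.1 hc (r1 Finset.univ (fun _ => 1) fun _ => Or.inl rfl)).dist_le_mul
        v hv z hz
      have a1 := (Bd.lipg.1 hc (r1 Finset.univ (Sum.elim (fun _ => 1) fun _ => -1) (by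
        rintro (i | i)
        · exact Or.inl rfl
        · exact Or.inr rfl))).dist_le_mul v hv z hz
      have e0 : ∀ x, ∑ i : A 0 ⊕ A 1, 1 * u i x = U₀ x + U₁ x := fun x => by
        simp only [one_mul, Fintype.sum_sum_type, U₀, U₁]
      have e1 : ∀ x, ∑ i : A 0 ⊕ A 1, Sum.elim (fun _ => (1 : ℝ)) (fun _ => -1) i * u i x =
          U₀ x - U₁ x := fun x => by
        simp only [Fintype.sum_sum_type, Sum.elim_inl, Sum.elim_inr, one_mul, neg_mul,
          Finset.sum_neg_distrib, U₀, U₁, sub_eq_add_neg]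
      have b0 : |U₀ v + U₁ v - (U₀ z + U₁ z)| ≤ Lm j * dist v z := by
        rw [← e0, ← e0]; exact a0
      have b1 : |U₀ v - U₁ v - (U₀ z - U₁ z)| ≤ Lm j * dist v z := by
        rw [← e1, ← e1]; exact a1
      have b2 : |U₀ v - U₀ z| + |U₁ v - U₁ z| ≤ Lm j * dist v z :=
        abs_add_abs_le (by convert b0 using 2; ring) (by convert b1 using 2; ring)
      rw [hdif v (hsub j hv) z (hsub j hz)]
      calc d / 2 * (|U₀ v - U₀ z| + |U₁ v - U₁ z|) * dist x y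
          ≤ d / 2 * (Lm j * dist v z) * dist x y := by gcongr
        _ = _ := by rw [M2 j hj, hdi]; field_simp
    · have hx : x ∈ Y.K.cell j := hxy ▸ left_mem_segment ℝ x y
      have hy : y ∈ Y.K.cell j := hxy ▸ right_mem_segment ℝ x y
      have a0 : ∑ i : A 0 ⊕ A 1, |u i y - u i x| ≤ 2 * (Y.cnt A j : ℝ) :=
        r2 x y hxy hb Finset.univ
      rw [Fintype.sum_sum_type] at a0
      have b0 : |U₀ y - U₀ x| ≤ ∑ t : A 0, |u (Sum.inl t) y - u (Sum.inl t) x| := by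
        rw [← Finset.sum_sub_distrib]; exact Finset.abs_sum_le_sum_abs _ _
      have b1 : |U₁ y - U₁ x| ≤ ∑ t : A 1, |u (Sum.inr t) y - u (Sum.inr t) x| := by
        rw [← Finset.sum_sub_distrib]; exact Finset.abs_sum_le_sum_abs _ _
      rw [hdif y (hsub j hy) x (hsub j hx)]
      nlinarith
  · refine (hgen j _ (q7 j hj hf)).trans (ENNReal.ofReal_le_ofReal ?_)
    have e1 : d * L₀ j ≤ B := hsup j B fun f he hde => by
      have hf2 : Y.K.dim f = 2 := by omega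
      obtain ⟨s1, s2⟩ := hB f hf2 he
      by_cases hef : f ∈ Y.fro
      · exact hsoft f hef B (s1 hef)
      · obtain ⟨B', s3, s4⟩ := s2 hef
        have := hface f B' hf2 hef s3
        have : 0 ≤ d * L f := by positivity
        linarith
    push_cast
    calc 2 * d * (c' * Y.M₁ j * (Y.M₂ j * L₀ j + 1))
        = 2 * c' * Y.M₁ j * (Y.M₂ j * (d * L₀ j) + d) := by ring
      _ ≤ _ := by gcongr
  · obtain ⟨j, χ₀, h₀⟩ := hS Y (hm φ hφ) hdp
    have hj : j ∈ 𝓣 := ⟨φ, ⟨hφ, hdp⟩, χ₀, h₀⟩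
    have q := hχ j hj
    have hs := q6 j hj
    have e : ph j hj = φ := S.Q.cell_injective (q.same.1.symm.trans h₀.same.1)
    rw [M1 j hj] at hs
    have hin := q.inv
    rw [e] at hs hin
    have hmem : ∀ v ∈ Fi.Q, ψ φ v ∈ St.pre g (Icc lo hi) := fun v hv =>
      hsub j (hin v hv ▸ (χ j hj).mapsTo_inv hv)
    refine hshp (b := fun k => b k + d / 2 * (A k).card) hp h0 h1 (hm φ hφ).pos hd0
      (by norm_num) (fun v hv i => ?_) (fun v _ => ?_) hs
    · fin_cases i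
      · change H (ψ φ v) 0 = b 0 + d / 2 * (A 0).card + d / 2 * _
        rw [H0 _ (hmem v hv), ← hin v hv]
        simp [Fi.stair, Finset.sum_filter, Fintype.sum_sum_type, U₀]
      · change H (ψ φ v) 1 = b 1 + d / 2 * (A 1).card + d / 2 * _
        rw [H1 _ (hmem v hv), ← hin v hv]
        simp [Fi.stair, Finset.sum_filter, Fintype.sum_sum_type, U₁]
    · exact (H2 _).trans (by simp [hd.nil 2 Y.notJ])

end P073.St3
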