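import Vale.Agent.P073Y.St3.Sk
import Vale.Agent.P073Y.St.Est
import Vale.Agent.P073Y.St.Api
import Vale.Agent.P073Y.St.Dim

/-!
# The estimates after the engine, cells of all dimensions
-/

open Set Metric Topology Filter MeasureTheory
open scoped NNReal ENNReal

namespace P073.St3

open P073.Top
open P073.St (Same pre pts api)
open P073.St.EstA (small toR edist_add lat_le lipc_le)

namespace EstB

variable {Ω Λ : Set E3} {S : Src Ω} {g : ConHomeo Ω Λ} {lo hi : E3} {o : ℝ} {J : Finset (Fin 3)}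
  {Bf : Fin 3 → Set ℝ} {Y : Site S g lo hi o J Bf} {A : Fin 3 → Finset ℝ} {d ϑ θ s p c : ℝ}
  {c' : ℝ≥0} {𝓢 : Set S.Q.ι} {ψ : S.Q.ι → (E2 →ᵃ[ℝ] E3)} {a : S.Q.ι → ℝ} {H : E3 → E3}

/-- few points on a whole wire -/
theorem few_cnt (hF : Few Y A d ϑ s) {j : Y.K.ι} {e : S.Q.ι} {x y : E3} (hj : Y.K.dim j = 1)
    (he : Y.K.cell j = S.Q.cell e) (hxy : Y.K.cell j = segment ℝ x y) :
    ENNReal.ofReal d * Y.cnt A j ≤
      ENNReal.ofReal (1 + ϑ) * lat g.toFun x y + ENNReal.ofReal s := by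
  rw [Site.cnt, inter_assoc, inter_eq_right.2 (Y.K.cell_subset_skel hj.le), he]
  exact (hF e x y (he.symm.trans hxy) (he ▸ Y.K.cell_subset_skel hj.le)).2

theorem sharp (hθ : 0 < θ) (hθ' : θ ≤ 1 / 1000) (hϑ : 0 < ϑ) (hϑ' : ϑ ≤ θ) (hd : 0 ≤ d)
    (hF : Few Y A d (ϑ / 4) s) (hE : Eng Y p c θ c' A d 𝓢 ψ a H) {j : Y.K.ι} {e : S.Q.ι}
    {x y : E3} (hj : Y.K.dim j = 1) (hf : j ∉ Y.fro) (he : Y.K.cell j = S.Q.cell e)
    (hxy : Y.K.cell j = segment ℝ x y) {η : ℝ≥0∞} (hη : ENNReal.ofReal (2 * s) ≤ η) :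
    SharpE g.toFun H x y θ η ∧ Rise g.toFun H x y ϑ η := by
  have h1 := few_cnt hF hj he hxy
  obtain ⟨h2, h3⟩ := hE.wire j x y hj hf hxy
  rw [ENNReal.ofReal_mul zero_le_two, ENNReal.ofReal_ofNat] at hη
  refine ⟨fun u hu w hw => ?_, ?_⟩
  · have h4 := ENNReal.ofReal_le_ofReal (h2 u (hxy ▸ hu) w (hxy ▸ hw))
    rw [ENNReal.ofReal_mul (by positivity), ENNReal.ofReal_mul (by positivity),
      ENNReal.ofReal_mul (by positivity), ENNReal.ofReal_mul hd, ENNReal.ofReal_natCast,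
      ← edist_dist, ← edist_dist, ← edist_add] at h4
    rw [hE.flat u w, edist_self, add_zero]
    refine h4.trans (mul_le_mul_left ((mul_le_mul_left h1 _).trans ?_) _)
    rw [add_mul, mul_right_comm, ← ENNReal.ofReal_mul (by positivity), mul_comm (ENNReal.ofReal s)]
    refine add_le_add (mul_le_mul_left (ENNReal.ofReal_le_ofReal (by nlinarith)) _)
      ((mul_le_mul_left ?_ _).trans hη)
    rw [← ENNReal.ofReal_ofNat]
    exact ENNReal.ofReal_le_ofReal (by linarith)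
  · have h4 := ENNReal.ofReal_le_ofReal h3
    rw [ENNReal.ofReal_mul hd, ENNReal.ofReal_natCast, ← edist_add] at h4
    exact h4.trans (h1.trans (add_le_add
      (mul_le_mul_left (ENNReal.ofReal_le_ofReal (by linarith)) _)
      ((le_mul_of_one_le_left' one_le_two).trans hη)))

/-- the wires of a whole face -/
theorem wire_cases {φ : S.Q.ι} {j e : Y.K.ι} (hφ : S.Q.dim φ = 2) (hj : Same Y.K S.Q j φ)
    (he : Y.K.dim e = 1) (hej : Y.K.cell e ⊆ Y.K.cell j) : ∃ e', S.Q.dim e' = 1 ∧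
      S.Q.cell e' ⊆ S.Q.cell φ ∧ Y.K.cell e ⊆ S.Q.cell e' ∧
      (e ∉ Y.fro → Y.K.cell e = S.Q.cell e') := by
  obtain ⟨x, hx⟩ := Y.K.ocell_nonempty e
  obtain ⟨e', h1, h2, h3⟩ := St.dim.wire S.Q φ hφ x (hj.2.1 ▸ Y.K.subset_bd_of_dim_lt hej
    (by rw [he, hj.2.2, hφ]; exact one_lt_two) hx.1)
  have h4 := Y.inq e e' ⟨x, hx, h3⟩
  refine ⟨e', h1, h2.trans (S.Q.bd_subset φ), h4, fun h => ?_⟩
  obtain ⟨e'', h5⟩ := Y.free e h
  obtain rfl : e'' = e' := S.Q.eq_of_subset_of_dim_le (h5.1 ▸ h4) (by rw [← h5.2.2, h1, he])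
  exact h5.1

theorem fin_wires (Y : Site S g lo hi o J Bf) (j : Y.K.ι) :
    {e | S.Q.dim e = 1 ∧ S.Q.cell e ⊆ Y.K.bd j}.Finite :=
  (S.Q.finite_subset (Y.K.isCompact_bd j) fun _ hx => S.carrier.symm ▸
    (Y.carrier.subset (Y.K.cell_subset_carrier j (Y.K.bd_subset j hx))).1).subset fun _ h => h.2

/-- the number of points on the boundary of a whole face -/
theorem cnt_face (hϑ : ϑ ≤ 1) (hF : Few Y A d ϑ s) {φ κ : S.Q.ι} {j : Y.K.ι}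
    (hφ : S.Q.dim φ = 2) (hj : Same Y.K S.Q j φ) (hκ : S.Q.cell φ ⊆ S.Q.cell κ) :
    ENNReal.ofReal d * Y.cnt A j ≤ 8 * Y.M₂ j * S.A g.toFun κ +
      (fin_wires Y j).toFinset.card * ENNReal.ofReal s := by
  have h2 : Y.K.dim j = 2 := hj.2.2.trans hφ
  have h1 : ∀ x, x ∈ Y.K.bd j ↔ x ∈ Y.K.cell j ∧ x ∈ Y.K.skel 1 := fun x => by
    rw [← Y.K.cell_inter_skel (k := 1) h2, mem_inter_iff]
  have h3 : pts g lo hi A ∩ Y.K.skel 1 ∩ Y.K.cell j =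
      ⋃ e ∈ (fin_wires Y j).toFinset, pts g lo hi A ∩ S.Q.cell e := by
    ext x
    simp only [mem_iUnion₂, Finite.mem_toFinset, mem_ofPred_eq, mem_inter_iff, exists_prop]
    refine ⟨fun h => ?_, fun ⟨e, h, h'⟩ => ⟨⟨h'.1, ((h1 x).1 (h.2 h'.2)).2⟩,
      ((h1 x).1 (h.2 h'.2)).1⟩⟩
    obtain ⟨e, e1, e2, e3⟩ := St.dim.wire S.Q φ hφ x (hj.2.1 ▸ (h1 x).2 ⟨h.2, h.1.2⟩)
    exact ⟨e, ⟨e1, hj.2.1 ▸ e2⟩, h.1.1, e3⟩
  have h4 := Finset.set_ncard_biUnion_le (fin_wires Y j).toFinset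
    fun e => pts g lo hi A ∩ S.Q.cell e
  have h5 := (api.area (h2 ▸ Y.chart j h2.ge)).2
  rw [Site.cnt, h3]
  refine (mul_le_mul_right (Nat.cast_le.2 h4) _).trans ?_
  rw [Nat.cast_sum, Finset.mul_sum]
  refine (Finset.sum_le_sum (g := fun e => 8 * Y.M₂ j * lipc g.toFun (S.Q.cell e) +
    ENNReal.ofReal s) fun e he => ?_).trans ?_
  · obtain ⟨e1, e2⟩ := (Finite.mem_toFinset _).1 he
    obtain ⟨x, y, -, -, -, hxy, -⟩ := S.cvx.exists_segment e1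
    have h6 : edist x y ≤ 2 * Y.M₂ j := by
      have := h5 x ((h1 x).1 (e2 (hxy ▸ left_mem_segment ℝ x y))).1
        y ((h1 y).1 (e2 (hxy ▸ right_mem_segment ℝ x y))).1
      rw [edist_nndist]
      exact_mod_cast this
    refine (hF e x y hxy fun u hu => ((h1 u).1 (e2 hu)).2).2.trans (add_le_add_left
      ((lat_le api hϑ _ x y).trans ((mul_le_mul_right h6 _).trans_eq ?_)) _)
    rw [hxy]
    ring
  · rw [Finset.sum_add_distrib, Finset.sum_const, nsmul_eq_mul, ← Finset.mul_sum]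
    refine add_le_add_left (mul_le_mul_right (api.wires S _ κ _ fun e he => ?_) _) _
    obtain ⟨e1, e2⟩ := (Finite.mem_toFinset _).1 he
    exact ⟨e1, e2.trans ((hj.1 ▸ Y.K.bd_subset j).trans hκ)⟩

/-- the constant for faces -/
noncomputable def cF (c' θ M : ℝ≥0) : ℝ≥0 := c' / θ * M ^ 2 * (128 / θ + 8)

/-- the slopes on the wires of a whole face of the cell `κ` -/
theorem face0 {θ t u α : ℝ≥0} (hθ : 0 < θ) (hθ' : (θ : ℝ) ≤ 1)
    (hϑ : ϑ ≤ 1) (ht : (t : ℝ) ≤ 1) (hd : 0 ≤ d) (hd' : d ≤ t * t) (hF : Few Y A d ϑ (t * t))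
    (h1 : ∀ e, 0 < diam (Y.K.cell e) → 32 * (t : ℝ) ≤ θ * diam (Y.K.cell e)) {φ κ : S.Q.ι}
    {j : Y.K.ι} (h2 : (c' / θ * Y.M₁ j *
      (Y.M₂ j + (fin_wires Y j).toFinset.card + 1) : ℝ) * t ≤ u)
    (hφ : S.Q.dim φ = 2) (hj : Same Y.K S.Q j φ) (hκ : S.Q.cell φ ⊆ S.Q.cell κ)
    (hα : (α : ℝ≥0∞) = S.A g.toFun κ) : ∃ B : ℝ≥0, Wir Y θ A d j B ∧
      (c' / θ * Y.M₁ j * (Y.M₂ j * B + d * Y.cnt A j + d) : ℝ) ≤ cF c' θ (S.M κ) * α + u := by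
  have hθ0 : (0 : ℝ) < θ := hθ
  have h3 := cnt_face hϑ hF hφ hj hκ
  rw [← hα] at h3
  replace h3 : d * Y.cnt A j ≤ 8 * Y.M₂ j * α + (fin_wires Y j).toFinset.card * (t * t) :=
    toR hd (by positivity) (h3.trans_eq (by
      simp (disch := positivity) only [ENNReal.ofReal_add, ENNReal.ofReal_mul,
        ENNReal.ofReal_coe_nnreal, ENNReal.ofReal_natCast, ENNReal.ofReal_ofNat]))
  refine ⟨128 / θ * α + t, fun e he hej => ?_, ?_⟩
  · obtain ⟨e', e1, e2, e3, e4⟩ := wire_cases hφ hj he hej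
    have h4 : lipc g.toFun (Y.K.cell e) ≤ α := by
      have := api.wires S g.toFun κ {e'} fun _ h => Finset.mem_singleton.1 h ▸ ⟨e1, e2.trans hκ⟩
      rw [Finset.sum_singleton, ← hα] at this
      exact (api.mono _ e3).trans this
    refine ⟨fun _ => (mul_le_mul_right h4 _).trans ?_, fun h x y hxy => ?_⟩
    · have : (20 : ℝ) ≤ 128 / θ := (le_div_iff₀ hθ0).2 (by linarith)
      exact_mod_cast (show (20 * α : ℝ) ≤ 128 / θ * α + t from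
        (mul_le_mul_of_nonneg_right this α.coe_nonneg).trans (le_add_of_nonneg_right t.coe_nonneg))
    · obtain ⟨hne, -, h5⟩ := (St.dim.seg Y.K e he (hxy ▸ convex_segment x y)).2 x y hxy
      have h6 := h1 e (h5 ▸ dist_pos.2 hne)
      have h7 : d * Y.cnt A e ≤ 4 * α * dist x y + t * t := toR hd (by positivity)
        ((few_cnt hF he (e4 h) hxy).trans ((add_le_add_left ((lat_le api hϑ _ x y).trans
          (mul_le_mul_left (mul_le_mul_right (hxy ▸ h4) _) _)) _).trans_eq (by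
            simp (disch := positivity) only [ENNReal.ofReal_add, ENNReal.ofReal_mul, edist_dist,
              ENNReal.ofReal_coe_nnreal, ENNReal.ofReal_ofNat])))
      rw [h5] at h6
      push_cast
      rw [mul_add, ← mul_assoc (θ : ℝ), mul_div_cancel₀ _ hθ0.ne']
      nlinarith [mul_le_mul_of_nonneg_right h6 t.coe_nonneg]
  · have h4 : (Y.M₁ j : ℝ) * Y.M₂ j ≤ (S.M κ : ℝ) ^ 2 := by
      exact_mod_cast Y.same j φ κ hj hφ.ge hκ
    rw [cF]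
    push_cast
    have h5 : (t : ℝ) * t ≤ t := mul_le_of_le_one_left t.coe_nonneg ht
    have h6 : (Y.M₂ j : ℝ) * (128 / θ * α + t) + d * Y.cnt A j + d ≤
        Y.M₂ j * (128 / θ + 8) * α + (Y.M₂ j + (fin_wires Y j).toFinset.card + 1) * t := by
      nlinarith [mul_le_mul_of_nonneg_left h5 (Nat.cast_nonneg (fin_wires Y j).toFinset.card)]
    have h7 := mul_le_mul_of_nonneg_left h4
      (show (0 : ℝ) ≤ c' / θ * (128 / θ + 8) * α by positivity)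
    nlinarith [mul_le_mul_of_nonneg_left h6 (show (0 : ℝ) ≤ c' / θ * Y.M₁ j by positivity)]

/-- a whole cell of dimension three -/
theorem cell {θ t u s α l : ℝ≥0} (hθ : 0 < θ) (hθ' : (θ : ℝ) ≤ 1)
    (hϑ : ϑ ≤ 1) (ht : (t : ℝ) ≤ 1) (hd : 0 ≤ d) (hd' : d ≤ t * t) (hF : Few Y A d ϑ (t * t))
    (hE : Eng Y p c θ c' A d 𝓢 ψ a H)
    (h1 : ∀ e, 0 < diam (Y.K.cell e) → 32 * (t : ℝ) ≤ θ * diam (Y.K.cell e))
    (h2 : ∀ j, (c' / θ * Y.M₁ j * (Y.M₂ j + (fin_wires Y j).toFinset.card + 1) : ℝ) * t ≤ u)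
    (htu : (t : ℝ) ≤ u) {φ : S.Q.ι} {j : Y.K.ι}
    (h3 : (2 * c' * Y.M₁ j * (Y.M₂ j + 1) : ℝ) * u ≤ s)
    (hφ : S.Q.dim φ = 3) (hf : j ∉ Y.fro) (hj : Same Y.K S.Q j φ)
    (hα : (α : ℝ≥0∞) = S.A g.toFun φ) (hl : ∀ f ∈ Y.fro, Y.K.dim f = 2 →
      Y.K.cell f ⊆ Y.K.cell j → lipc g.toFun (Y.K.cell f) ≤ l) : lipc H (S.Q.cell φ) ≤
      (2 * c' * S.M φ ^ 2 * (20 + cF c' θ (S.M φ)) : ℝ≥0) * ((l : ℝ≥0∞) + α) + s := by
  rw [← hj.1]
  refine (hE.cell j (20 * l + cF c' θ (S.M φ) * α + u) (hj.2.2.trans hφ) hf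
    fun f hf2 hfj => ⟨fun h => (mul_le_mul_right (hl f h hf2 hfj) _).trans ?_, fun h => ?_⟩).trans
    ?_
  · exact_mod_cast (le_self_add.trans le_self_add : 20 * l ≤ 20 * l + cF c' θ (S.M φ) * α + u)
  · obtain ⟨φ', h4⟩ := Y.free f h
    obtain ⟨B, b1, b2⟩ := face0 hθ hθ' hϑ ht hd hd' hF h1 (h2 f) (h4.2.2 ▸ hf2) h4
      (h4.1 ▸ hj.1 ▸ hfj) hα
    refine ⟨B, b1, b2.trans ?_⟩
    push_cast
    linarith [l.coe_nonneg]
  · have h4 : (Y.M₁ j : ℝ) * Y.M₂ j ≤ (S.M φ : ℝ) ^ 2 := by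
      exact_mod_cast Y.same j φ φ hj (by omega) Subset.rfl
    have h5 : d ≤ u := hd'.trans ((mul_le_of_le_one_left t.coe_nonneg ht).trans htu)
    rw [← ENNReal.coe_add, ← ENNReal.coe_mul, ← ENNReal.coe_add, ← ENNReal.ofReal_coe_nnreal]
    refine ENNReal.ofReal_le_ofReal ?_
    push_cast
    generalize cF c' θ (S.M φ) = F
    have h6 := mul_le_mul_of_nonneg_left h4
      (show (0 : ℝ) ≤ 2 * c' * (20 * l + F * α) by positivity)
    have h7 := mul_le_mul_of_nonneg_left h5 (show (0 : ℝ) ≤ 2 * c' * Y.M₁ j by positivity)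
    have h8 : (0 : ℝ) ≤ 2 * c' * S.M φ ^ 2 * (20 * α + F * l) := by positivity
    nlinarith

/-- the faces of a deep cell are free -/
theorem deep_face (hD : Dim3) {φ : S.Q.ι} {j f : Y.K.ι} (hφ : S.Q.dim φ = 3)
    (hj : Same Y.K S.Q j φ) (hp : Deep g.toFun (S.Q.cell φ) lo hi (2 * o)) (hf : Y.K.dim f = 2)
    (hfj : Y.K.cell f ⊆ Y.K.cell j) : f ∉ Y.fro := by
  obtain ⟨x, hx⟩ := Y.K.ocell_nonempty f
  obtain ⟨f', h1, h2, h3⟩ := hD.face S.Q φ hφ x (hj.2.1 ▸ Y.K.subset_bd_of_dim_lt hfj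
    (by rw [hf, hj.2.2, hφ]; omega) hx.1)
  obtain ⟨j', h4, h5⟩ := Y.deep f' fun y hy => hp y (S.Q.bd_subset φ (h2 hy))
  rwa [Y.K.eq_of_subset_of_dim_le (Y.K.cell_subset_of_mem hx (h5.1 ▸ h3))
    (by rw [h5.2.2, h1, hf])]

theorem fit (hS : SQR) (hθ : 0 < θ) (hθ' : θ ≤ 1 / 1000) (hϑ' : ϑ ≤ θ) (hd : 0 ≤ d)
    (hd' : d ≤ s) (hF : Few Y A d (ϑ / 4) s) (hM : ∀ φ ∈ 𝓢, Marked S g.toFun θ φ (ψ φ) (a φ))
    (hs : ∀ j, ∀ φ ∈ 𝓢, Same Y.K S.Q j φ → s ≤ θ * a φ) : Fit Y θ A d 𝓢 a := by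
  intro φ hφ hp
  obtain ⟨j, χ, hq⟩ := hS Y (hM φ hφ) hp
  have h1 := hs j φ hφ hq.same
  have ha := (hM φ hφ).pos
  refine ⟨hd'.trans h1, fun e he he' => ?_⟩
  obtain ⟨x, y, e', h2, h3, h4, -⟩ := hq.wire e he (hq.same.1 ▸ he')
  have h5 : d * Y.cnt A e ≤ (1 + θ / 4) * ((1 + θ) * (2 * a φ)) + θ * a φ :=
    toR hd (by positivity) ((few_cnt hF he h2.1 h3).trans (by
      rw [ENNReal.ofReal_add (q := θ * a φ) (by positivity) (by positivity),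
        ENNReal.ofReal_mul (p := 1 + θ / 4) (by positivity)]
      exact add_le_add (mul_le_mul' (ENNReal.ofReal_le_ofReal (by linarith)) h4)
        (ENNReal.ofReal_le_ofReal h1)))
  refine (mul_le_mul_of_nonneg_right h5 (by positivity)).trans ?_
  have h6 : ((1 + θ / 4) * ((1 + θ) * 2) + θ) * (1 + θ / 4) ≤ 2 * (1 + 3 * θ) := by
    nlinarith [mul_pos hθ hθ]
  nlinarith [mul_le_mul_of_nonneg_right h6 ha.le]

/-- it suffices to treat finite values -/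
theorem fin_case {L X s : ℝ≥0∞} {C : ℝ≥0} (h : ∀ α : ℝ≥0, (α : ℝ≥0∞) = X → L ≤ C * X + s) :
    L ≤ (C + 1 : ℝ≥0) * X + s := by
  rcases eq_or_ne X ⊤ with h0 | h0
  · rw [h0, ENNReal.mul_top (ENNReal.coe_ne_zero.2 (by positivity)), top_add]
    exact le_top
  · exact (h _ (ENNReal.coe_toNNReal h0)).trans
      (add_le_add_left (mul_le_mul_left (ENNReal.coe_le_coe.2 le_self_add) _) _)

end EstB

open EstB

theorem est_of (hD : Dim3) (hS : SQR) : EST := by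
  intro θ c' hθ hθ'
  lift θ to ℝ≥0 using hθ.le
  refine ⟨fun M => 2 * c' * M ^ 2 * (20 + cF c' θ M) + cF c' θ M + 1, ?_⟩
  intro Ω Λ S g lo hi o J Bf Y ϑ s 𝓢 ψ a hϑ hϑ' hs hM
  have := Y.fin
  have hs' : (0 : ℝ) < s := hs
  have e0 : ∀ᶠ u in 𝓝[>] (0 : ℝ), ∀ j, (2 * c' * Y.M₁ j * (Y.M₂ j + 1) : ℝ) * u ≤ s :=
    eventually_all.2 fun j => small _ hs'
  obtain ⟨u, u0, u1, u2⟩ := ((eventually_mem_nhdsWithin (a := (0 : ℝ))
    (s := Ioi 0)).and (e0.and (small 2 hs'))).exists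
  have hu : 0 < u := u0
  lift u to ℝ≥0 using hu.le
  have e1 : ∀ᶠ t in 𝓝[>] (0 : ℝ), ∀ e, 0 < diam (Y.K.cell e) → 32 * t ≤ θ * diam (Y.K.cell e) :=
    eventually_all.2 fun e => eventually_imp_distrib_left.2 fun h => small _ (mul_pos hθ h)
  have e2 : ∀ᶠ t in 𝓝[>] (0 : ℝ), ∀ j, (c' / θ * Y.M₁ j *
      (Y.M₂ j + (fin_wires Y j).toFinset.card + 1) : ℝ) * t ≤ u :=
    eventually_all.2 fun j => small _ hu
  have e3 : ∀ᶠ t in 𝓝[>] (0 : ℝ), ∀ j, ∀ φ ∈ 𝓢, Same Y.K S.Q j φ → 1 * t ≤ θ * a φ :=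
    eventually_all.2 fun j => by
      by_cases h : ∃ φ ∈ 𝓢, Same Y.K S.Q j φ
      · obtain ⟨φ, h1, h2⟩ := h
        exact (small 1 (mul_pos hθ (hM φ h1).pos)).mono fun t ht φ' _ h3 =>
          S.Q.cell_injective (h2.1.symm.trans h3.1) ▸ ht
      · exact Eventually.of_forall fun t φ h1 h2 => absurd ⟨φ, h1, h2⟩ h
  obtain ⟨t, h0, h1, h2, h3, h4, h5⟩ := ((eventually_mem_nhdsWithin (a := (0 : ℝ))
    (s := Ioi 0)).and (e1.and (e2.and (e3.and ((small 1 one_pos).and (small 1 hu)))))).exists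
  have ht : 0 < t := h0
  lift t to ℝ≥0 using ht.le
  rw [one_mul] at h3 h4 h5
  have h6 : (t : ℝ) * t ≤ t := mul_le_of_le_one_left t.coe_nonneg h4
  have hθ1 : (θ : ℝ) ≤ 1 := by linarith
  have hϑ1 : ϑ / 4 ≤ 1 := by linarith
  refine ⟨t * t, by positivity, fun A d hd hAd hF => ⟨fit hS hθ hθ' hϑ' hAd.pos.le hd hF hM
    fun j φ hφ hj => h6.trans (h3 j φ hφ hj), fun p c H hE => ⟨hE.soft, fun e j he hf hj => ?_,
    fun φ j hφ hf hj => fin_case fun α hα => ?_, fun φ j hφ hf hj =>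
      ⟨fin_case fun β hβ => ?_, fun hp => fin_case fun α hα => ?_⟩, hE.sharp⟩⟩⟩
  · have hj1 : Y.K.dim j = 1 := hj.2.2.trans he
    refine ⟨?_, fun x y hxy => sharp hθ hθ' hϑ hϑ' hAd.pos.le hF hE hj1 hf hj.1 (hj.1.trans hxy)
      (ENNReal.ofReal_le_of_le_toReal (by rw [ENNReal.coe_toReal]; linarith))⟩
    obtain ⟨x, y, -, -, hne, hxy, -⟩ := S.cvx.exists_segment he
    have h7 := ((St.dim.seg Y.K j hj1 (Y.cvx j)).2 x y (hj.1.trans hxy)).2.2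
    have h8 := h1 j (h7 ▸ dist_pos.2 hne)
    rw [h7] at h8
    rw [hxy]
    refine lipc_le api hθ1 hne
      (sharp hθ hθ' hϑ hϑ' hAd.pos.le hF hE hj1 hf hj.1 (hj.1.trans hxy) le_rfl).1 ?_
    rw [edist_dist, ← ENNReal.ofReal_coe_nnreal, ← ENNReal.ofReal_mul s.coe_nonneg]
    have h9 : (t : ℝ) ≤ dist x y := by nlinarith [dist_nonneg (x := x) (y := y)]
    exact ENNReal.ofReal_le_ofReal
      (by nlinarith [mul_le_mul (show 2 * (t : ℝ) ≤ s by linarith) h9 t.coe_nonneg s.coe_nonneg])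
  · obtain ⟨B, b1, b2⟩ := face0 hθ hθ1 hϑ1 h4 hAd.pos.le hd hF h1 (h2 j) hφ hj Subset.rfl hα
    rw [← hj.1, ← hα, ← ENNReal.coe_mul, ← ENNReal.coe_add, ← ENNReal.ofReal_coe_nnreal]
    refine (hE.face j B (hj.2.2.trans hφ) hf b1).trans (ENNReal.ofReal_le_ofReal (b2.trans ?_))
    push_cast
    have : (0 : ℝ) ≤ 2 * c' * S.M φ ^ 2 * (20 + cF c' θ (S.M φ)) * α := by positivity
    linarith [u.coe_nonneg]
  · have b1 := ENNReal.add_ne_top.1 (hβ ▸ ENNReal.coe_ne_top (r := β))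
    have b2 := ENNReal.coe_toNNReal b1.1
    have b3 := ENNReal.coe_toNNReal b1.2
    have := cell hθ hθ1 hϑ1 h4 hAd.pos.le hd hF hE h1 h2 h5 (u1 j) hφ hf hj b3
      fun f _ _ hfj => (api.mono _ (hj.1 ▸ hfj)).trans b2.ge
    rw [b2, b3] at this
    exact this.trans (add_le_add_left (mul_le_mul_left (ENNReal.coe_le_coe.2 le_self_add) _) _)
  · have := cell (l := 0) hθ hθ1 hϑ1 h4 hAd.pos.le hd hF hE h1 h2 h5 (u1 j) hφ hf hj hα
      fun f h hf2 hfj => absurd h (deep_face hD hφ hj hp hf2 hfj)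
    rw [ENNReal.coe_zero, zero_add, hα] at this
    exact this.trans (add_le_add_left (mul_le_mul_left (ENNReal.coe_le_coe.2 le_self_add) _) _)

end P073.St3
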