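import Vale.Agent.P073Y.St3.Sk
import Vale.Agent.P073Y.St.Fin
import Vale.Agent.P073Y.St.Api

/-!
# Normalisation in one box with bounds on all cells: the final estimates
-/

open Set Metric Topology Filter MeasureTheory
open scoped NNReal ENNReal

namespace P073.St3

open P073.Top
open P073.St (Same Pert api)
open P073.St.Fn (ev_small exists_of_ev lip_pert cell_sub meet_of_sub)

namespace Fn

variable {Ω Λ : Set E3} {S : Src Ω} {g : ConHomeo Ω Λ} {lo hi : E3} {o : ℝ} {J : Finset (Fin 3)}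
  {Bf : Fin 3 → Set ℝ} {C₁ s : ℝ≥0} {H h D : E3 → E3}

theorem kcell_sub (Y : Site S g lo hi o J Bf) (j : Y.K.ι) : Y.K.cell j ⊆ St.pre g (Icc lo hi) :=
  (Y.K.cell_subset_carrier j).trans Y.carrier.le

theorem same_sub (Y : Site S g lo hi o J Bf) {j : Y.K.ι} {φ : S.Q.ι} (h : Same Y.K S.Q j φ) :
    S.Q.cell φ ⊆ St.pre g (Icc lo hi) := h.1 ▸ kcell_sub Y j

variable {p c θ ϑ : ℝ} {CM₁ : ℝ≥0 → ℝ≥0} {𝓢 : Set S.Q.ι} {ψ : S.Q.ι → (E2 →ᵃ[ℝ] E3)}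
  {a : S.Q.ι → ℝ} {Y : Site S g lo hi o J Bf}

theorem cut (hE : Est Y p c θ ϑ CM₁ s 𝓢 ψ a H) (P : Pert g lo hi C₁ s H h D) {φ : S.Q.ι}
    (ht : ∀ j, ∀ x ∈ Y.K.ocell j, x ∈ S.Q.cell φ → g.toFun x ∈ interior (Icc lo hi) → j ∈ Y.fro) :
    lipc h (S.Q.cell φ) ≤ (max 40 C₁ : ℝ≥0) * lipc g.toFun (S.Q.cell φ) + 2 * s := by
  have := Y.fin
  refine api.cover (insert (S.Q.cell φ ∩ g.toFun ⁻¹' (interior (Icc lo hi))ᶜ)
    (Y.K.cell '' {j | j ∈ Y.fro ∧ Y.K.cell j ⊆ S.Q.cell φ})) (S.cvx φ).1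
    (((toFinite _).image _).insert _) ?_ fun x hx => ?_
  · rintro _ (rfl | ⟨j, hj, rfl⟩)
    · refine ⟨(g.cont.mono (cell_sub S φ)).preimage_isClosed_of_isClosed (S.Q.isClosed_cell φ)
        isOpen_interior.isClosed_compl, le_add_right (api.le_of fun x hx y hy => ?_)⟩
      refine (P.outer x (cell_sub S φ hx.1) y (cell_sub S φ hy.1) hx.2 hy.2).trans ?_
      rw [mul_assoc]
      exact mul_le_mul' (ENNReal.coe_le_coe.2 (le_max_right _ _)) (api.edist_le _ hx.1 hy.1)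
    · refine ⟨Y.K.isClosed_cell j, (lip_pert api P (kcell_sub Y j)).trans (add_le_add
        ((hE.soft j hj.1).trans (mul_le_mul' ?_ (api.mono _ hj.2))) ?_)⟩
      · exact_mod_cast le_max_left _ _
      · rw [two_mul]
        exact le_self_add
  · by_cases hg : g.toFun x ∈ interior (Icc lo hi)
    · obtain ⟨j, hj⟩ := Y.K.exists_ocell (Y.carrier.ge ⟨cell_sub S φ hx, interior_subset hg⟩)
      exact ⟨_, Or.inr ⟨j, ⟨ht j x hj hx hg, Y.inq j φ ⟨x, hj, hx⟩⟩, rfl⟩, hj.1⟩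
    · exact ⟨_, Or.inl rfl, hx, hg⟩

theorem whole (P : Pert g lo hi C₁ s H h D) {φ : S.Q.ι} {j : Y.K.ι} (hs : Same Y.K S.Q j φ)
    {A B : ℝ≥0∞} (h1 : lipc H (S.Q.cell φ) ≤ A + s) (h2 : A ≤ B) :
    lipc h (S.Q.cell φ) ≤ B + 2 * s := by
  rw [two_mul, ← add_assoc]
  exact (lip_pert api P (same_sub Y hs)).trans (add_le_add_left (h1.trans (add_le_add_left h2 _)) _)

end Fn

open Fn

theorem finb : FINB := by
  intro C₁ CM₁
  refine ⟨max 40 C₁, fun M => CM₁ M + max 40 C₁, le_max_right _ _, ?_⟩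
  intro Ω Λ S g lo hi o J Bf Y s p c θ ϑ 𝓢 ψ a H h D hE P
  have k : ∀ M, (CM₁ M : ℝ≥0∞) ≤ (CM₁ M + max 40 C₁ : ℝ≥0) := fun M =>
    ENNReal.coe_le_coe.2 le_self_add
  have d : ∀ φ, 2 ≤ S.Q.dim φ → S.Q.dim φ = 2 ∨ S.Q.dim φ = 3 := fun φ h => by
    have := Y.dimQ φ
    omega
  refine ⟨fun e he => ?_, fun φ hφ => ?_, fun φ hφ ho => ?_⟩
  · rcases Y.trk e with ⟨j, hj, hs⟩ | ht
    · refine whole P hs (hE.wire e j he hj hs).1 (mul_le_mul_left ?_ _)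
      exact_mod_cast le_max_of_le_left (by norm_num)
    · exact cut hE P ht
  · rcases Y.trk φ with ⟨j, hj, hs⟩ | ht
    · rcases d φ hφ with h2 | h2
      · exact whole P hs (hE.face φ j h2 hj hs) (mul_le_mul' (k _) le_add_self)
      · exact whole P hs (hE.cell φ j h2 hj hs).1 (mul_le_mul_left (k _) _)
    · exact (cut hE P ht).trans (add_le_add_left
        (mul_le_mul' (ENNReal.coe_le_coe.2 le_add_self) le_self_add) _)
  · obtain ⟨j, hj, hs⟩ := Y.deep φ ho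
    rcases d φ hφ with h2 | h2
    · exact whole P hs (hE.face φ j h2 hj hs) (mul_le_mul_left (k _) _)
    · exact whole P hs ((hE.cell φ j h2 hj hs).2 ho) (mul_le_mul_left (k _) _)

theorem finc {p : ℝ} (hp : 1 ≤ p) : FINC p := by
  intro Ω Λ S g lo hi o J Bf Y η c θ 𝓢 ψ a hη hθ hc hM
  have p0 : 0 < p := by linarith
  choose L hL using fun φ => (ψ φ).lipschitzWith_of_finiteDimensional
  have e1 : ∀ᶠ s : ℝ≥0 in 𝓝 0, ∀ φ ∈ {φ | (S.Q.cell φ ∩ St.pre g (Icc lo hi)).Nonempty},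
      (1 + 3 * ediam (S.Q.cell φ)) * (s : ℝ≥0∞) ^ (1 : ℝ) ≤ η ∧
      2 ^ p * (L φ : ℝ≥0∞) ^ p * 4 * (s : ℝ≥0∞) ^ p ≤ η ∧ (φ ∈ 𝓢 → (s : ℝ) ≤ θ * a φ) := by
    refine (eventually_all_finite (S.Q.finite_meet Y.ball.isCompact fun _ hx =>
      S.carrier.ge hx.1)).2 fun φ _ => ?_
    refine (ev_small ?_ hη one_pos).and ((ev_small ?_ hη p0).and ?_)
    · exact ENNReal.add_ne_top.2 ⟨by simp, ENNReal.mul_ne_top (by simp)
        (isBounded_iff_ediam_ne_top.1 (S.Q.isCompact_cell φ).isBounded)⟩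
    · exact ENNReal.mul_ne_top (ENNReal.mul_ne_top (ENNReal.rpow_ne_top_of_nonneg p0.le (by simp))
        (ENNReal.rpow_ne_top_of_nonneg p0.le ENNReal.coe_ne_top)) (by simp)
    · by_cases hφ : φ ∈ 𝓢
      · exact ((NNReal.continuous_coe.tendsto 0).eventually_le_const
          (mul_pos hθ (hM φ hφ).pos)).mono fun s hs _ => hs
      · exact Eventually.of_forall fun s h => (hφ h).elim
  obtain ⟨s₀, h0, hs₀⟩ := exists_of_ev e1
  refine ⟨s₀, h0, fun s hs => ?_⟩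
  intro ϑ C₁ CM₁ H h D hEst P
  refine ⟨fun e x y he hxy ho => ?_, fun φ hφ ho => ?_⟩
  · obtain ⟨j, hj, hs'⟩ := Y.deep e ho
    have k1 := (hs₀ s hs e (meet_of_sub (same_sub Y hs'))).1
    obtain ⟨k2, k3⟩ := (hEst.wire e j he hj hs').2 x y hxy
    rw [ENNReal.rpow_one] at k1
    refine St.Fn.sharp P (hxy ▸ same_sub Y hs') (le_trans ?_ k1) k2 k3
    gcongr
    exact edist_le_ediam_of_mem (hxy ▸ left_mem_segment ℝ x y) (hxy ▸ right_mem_segment ℝ x y)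
  · obtain ⟨j, -, hs'⟩ := Y.deep φ ho
    obtain ⟨-, k1, k2⟩ := hs₀ s hs φ (meet_of_sub (same_sub Y hs'))
    exact St.Fn.sharpF api hp P (fun v hv => same_sub Y hs' ((hM φ hφ).cell ▸ mem_image_of_mem _ hv))
      (hL φ) hθ hc (hM φ hφ).pos (k2 hφ) k1 (hEst.sharp φ hφ ho)

end P073.St3
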