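import Vale.Agent.P073Y.St3.Sk
import Vale.Agent.P073Y.St.Dim

/-!
# Cells of dimension three, aligned cells, cells at the boundary of the box
-/

open Set Metric Topology Filter
open scoped NNReal

namespace P073.St3

open P073.Bd (Chart)
open P073.Top
open P073.St (Same Side)
open P073.B (Ali sd)

namespace KeyH

theorem charts {Ω : Set E3} (S : Src Ω) (K : RCx E3) (hF : Fc S) : ∃ M₁ M₂ : K.ι → ℝ≥0,
    (∀ c, 2 ≤ K.dim c → Chart (K.dim c) (K.cell c) (K.bd c) (M₁ c) (M₂ c)) ∧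
    ∀ j φ c, Same K S.Q j φ → 2 ≤ S.Q.dim φ → S.Q.cell φ ⊆ S.Q.cell c →
      M₁ j * M₂ j ≤ S.M c ^ 2 := by
  have h : ∀ j, ∃ M₁ M₂ : ℝ≥0, (2 ≤ K.dim j → Chart (K.dim j) (K.cell j) (K.bd j) M₁ M₂) ∧
      ∀ φ c, Same K S.Q j φ → 2 ≤ S.Q.dim φ → S.Q.cell φ ⊆ S.Q.cell c →
        M₁ * M₂ ≤ S.M c ^ 2 := fun j => by
    by_cases hc : ∃ φ, Same K S.Q j φ
    · obtain ⟨φ, h1, h2, h3⟩ := hc
      obtain ⟨c₀, h4, h5⟩ := exists_min_image _ S.M (S.Q.finite_cofaces φ) ⟨φ, Subset.rfl⟩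
      refine ⟨S.M c₀ / S.r c₀, S.M c₀ * S.r c₀, fun h6 => ?_, fun ψ c hψ _ h6 => ?_⟩
      · rw [h1, h2, h3]
        exact hF c₀ φ h4 (h3 ▸ h6)
      · rw [S.Q.cell_injective (hψ.1.symm.trans h1)] at h6
        have h7 := (S.r_pos c₀).ne'
        calc _ = S.M c₀ ^ 2 := by field_simp
          _ ≤ _ := pow_le_pow_left' (h5 c h6) 2
    · obtain ⟨M₁, M₂, h1⟩ := St.DimH.chart (K.ball j)
      exact ⟨M₁, M₂, fun _ => h1, fun φ _ hφ => (hc ⟨φ, hφ⟩).elim⟩
  choose M₁ M₂ h1 h2 using h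
  exact ⟨M₁, M₂, h1, h2⟩

/-- segments can be prolonged beyond a point of an open cell -/
theorem beyond {K : RCx E3} (hK : K.Cvx) {c : K.ι} {x y : E3} (hx : x ∈ K.ocell c)
    (hy : y ∈ K.cell c) : ∃ t : ℝ, t < 0 ∧ AffineMap.lineMap x y t ∈ K.cell c := by
  have h1 : x ∈ intrinsicInterior ℝ (K.cell c) := by
    rw [← intrinsicClosure_sdiff_intrinsicFrontier, ← (hK c).2.1]
    exact ⟨subset_intrinsicClosure hx.1, hx.2⟩
  obtain ⟨x', h2, rfl⟩ := mem_intrinsicInterior.1 h1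
  have h3 : ∀ t : ℝ, AffineMap.lineMap (x' : E3) y t ∈ affineSpan ℝ (K.cell c) := fun t =>
    AffineMap.lineMap_mem t x'.2 (subset_affineSpan ℝ _ hy)
  have h4 : Continuous fun t : ℝ => (⟨_, h3 t⟩ : affineSpan ℝ (K.cell c)) :=
    AffineMap.lineMap_continuous.subtype_mk _
  have h5 : ∀ᶠ t : ℝ in 𝓝 0, AffineMap.lineMap (x' : E3) y t ∈ K.cell c :=
    (h4.continuousAt (x := 0)).preimage_mem_nhds (t := Subtype.val ⁻¹' K.cell c) (by
      simpa only [AffineMap.lineMap_apply_zero] using mem_interior_iff_mem_nhds.1 h2)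
  obtain ⟨t, h6, h7⟩ := ((h5.filter_mono nhdsWithin_le_nhds).and
    (self_mem_nhdsWithin (s := Iio (0 : ℝ)))).exists
  exact ⟨t, h7, h6⟩

theorem line (A : E3 →ᵃ[ℝ] E3) (x y : E3) (t : ℝ) (k : Fin 3) :
    A (AffineMap.lineMap x y t) k = A x k + t * (A y k - A x k) := by
  rw [AffineMap.apply_lineMap, AffineMap.lineMap_apply]
  simp only [vsub_eq_sub, vadd_eq_add, Pi.add_apply, Pi.smul_apply, Pi.sub_apply, smul_eq_mul]
  ring

theorem not_int {lo hi y : E3} (h : y ∉ interior (Icc lo hi)) : ∃ k, y k ≤ lo k ∨ hi k ≤ y k := by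
  by_contra hn
  push Not at hn
  exact h (interior_maximal (t := pi univ fun i => Ioo (lo i) (hi i))
    (fun z hz => mem_Icc.2 ⟨fun i => (hz i trivial).1.le, fun i => (hz i trivial).2.le⟩)
    (isOpen_set_pi finite_univ fun _ _ => isOpen_Ioo) fun i _ => hn i)

theorem mem01 {k : Fin 3} (h : k ≠ 2) : k ∈ ({0, 1} : Finset (Fin 3)) := by
  revert k
  decide

end KeyH

open KeyH

theorem dim3 : Dim3 where
  top := fun S hΩ => by
    obtain ⟨h1, h2, -⟩ := man S.Q (n := 2) S.Q.sub_carrier (plMan_open (by rwa [S.carrier]))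
    exact ⟨fun c => h1 c (S.Q.cell_subset_carrier c), fun φ =>
      let ⟨c, h3, _, h4⟩ := h2 φ (S.Q.cell_subset_carrier φ); ⟨c, h4, h3⟩⟩
  face := fun K c h x hx => by
    obtain ⟨i, h1, h2⟩ := K.sub_bd c x hx
    obtain ⟨j, h3, h4, h5⟩ := (man K (n := 1) (K.sub_bd c)
      (ConBall.conSphere (n := 2) (h ▸ K.ball c)).plMan).2.1 i h2
    exact ⟨j, h5, h4, h3 h1⟩
  chart := charts

theorem ali : ALI := by
  rintro Ω Λ S g c ⟨⟨A, hA⟩, hB⟩
  refine ⟨fun φ hφ => ⟨⟨A, hA.mono hφ⟩, fun ψ hψ => hB ψ (hψ.trans hφ)⟩,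
    fun k v x hx hv h y hy => ?_, fun hd => ?_⟩
  · obtain ⟨t, ht, h1⟩ := beyond S.cvx hx hy
    have h2 := line A x y t k
    rw [← hA h1, ← hA hx.1, ← hA hy, hv] at h2
    rcases h with h | h
    · exact le_antisymm (h y hy) (by nlinarith [h _ h1])
    · exact le_antisymm (by nlinarith [h _ h1]) (h y hy)
  · obtain ⟨a, b, e⟩ := hB c Subset.rfl
    have h0 : ∀ x ∈ S.Q.cell c, g.toFun x ∈ Icc a b := fun x hx => e ▸ mem_image_of_mem _ hx
    suffices h : ∃ k : Fin 3, k ≠ 2 ∧ b k ≤ a k by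
      obtain ⟨k, h1, h2⟩ := h
      exact ⟨k, h1, fun x hx y hy => by
        linarith [(h0 x hx).1 k, (h0 x hx).2 k, (h0 y hy).1 k, (h0 y hy).2 k]⟩
    obtain ⟨p, q, hs⟩ : ∃ p q, S.Q.cell c = segment ℝ p q := by
      rcases Nat.le_one_iff_eq_zero_or_eq_one.1 hd with h | h
      · obtain ⟨p, hp⟩ := S.Q.exists_vertex h
        exact ⟨p, p, by rw [hp, segment_same]⟩
      · obtain ⟨p, q, -, -, -, hp, -⟩ := S.cvx.exists_segment h
        exact ⟨p, q, hp⟩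
    have h1 : ∀ y ∈ Icc a b, ∃ t : ℝ, ∀ k, y k = A p k + t * (A q k - A p k) := fun y hy => by
      obtain ⟨x, hx, rfl⟩ := e.ge hy
      rw [hA hx]
      rw [hs, segment_eq_image_lineMap] at hx
      obtain ⟨t, -, rfl⟩ := hx
      exact ⟨t, line A p q t⟩
    obtain ⟨x, hx⟩ := S.Q.cell_nonempty c
    have hab : a ≤ b := (h0 x hx).1.trans (h0 x hx).2
    have h2 : ∀ k, Function.update a k (b k) ∈ Icc a b := fun k =>
      ⟨le_update_self_iff.2 (hab k), update_le_iff.2 ⟨le_rfl, fun j _ => hab j⟩⟩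
    obtain ⟨t₀, e₀⟩ := h1 a ⟨le_rfl, hab⟩
    obtain ⟨t₁, e₁⟩ := h1 _ (h2 0)
    obtain ⟨t₂, e₂⟩ := h1 _ (h2 1)
    have a0 := e₀ 0
    have a1 := e₀ 1
    have b0 := e₁ 0
    have b1 := e₁ 1
    have c1 := e₂ 1
    rw [Function.update_self] at b0 c1
    rw [Function.update_of_ne (by decide)] at b1
    rcases mul_eq_zero.1 (show (t₁ - t₀) * (A q 1 - A p 1) = 0 by linarith) with h | h
    · obtain rfl : t₁ = t₀ := by linarith
      exact ⟨0, by decide, by linarith⟩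
    · rw [h] at a1 c1
      exact ⟨1, by decide, by linarith⟩

theorem key : KEY := by
  rintro Ω Λ S g lo hi o Bf hΩ ho hlo hO hR c ⟨z₀, h0, h0'⟩ hG x hx -
  have osc : ∀ y ∈ S.Q.cell c, ∀ y' ∈ S.Q.cell c, ∀ k, g.toFun y k - g.toFun y' k ≤ o :=
    fun y hy y' hy' k => (le_abs_self _).trans ((dist_le_pi_dist _ _ k).trans
      (hO c ⟨_, mem_image_of_mem _ h0.1, h0'⟩ y hy y' hy'))
  by_contra hn
  have lat : ∀ y ∈ S.Q.cell c, ∀ k, k ≠ 2 → lo k < g.toFun y k ∧ g.toFun y k < hi k :=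
    fun y hy k hk => by
      constructor <;> by_contra h <;> refine hn (Or.inr ⟨k, mem01 hk, ?_⟩)
      · exact Or.inl (by linarith [osc x hx y hy k])
      · exact Or.inr (by linarith [osc y hy x hx k])
  have hc : ContinuousOn (fun y => g.toFun y 2) (S.Q.cell c) :=
    (continuous_apply 2).comp_continuousOn
      (g.cont.mono ((S.Q.cell_subset_carrier c).trans S.carrier.le))
  obtain ⟨s, z, hz, hs⟩ : ∃ s, ∃ z ∈ S.Q.cell c, g.toFun z 2 = sd lo hi s 2 := by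
    obtain ⟨y, hy, h1⟩ : ∃ y ∈ S.Q.cell c, g.toFun y ∉ interior (Icc lo hi) := by
      by_contra h
      push Not at h
      exact hG (Or.inl h)
    obtain ⟨k, h2⟩ := not_int h1
    obtain rfl : k = 2 := by
      by_contra hk
      rcases h2 with h2 | h2 <;> linarith [(lat y hy k hk).1, (lat y hy k hk).2]
    rcases h2 with h2 | h2
    · exact ⟨false, (S.cvx c).1.isPreconnected.intermediate_value hy h0.1 hc ⟨h2, h0'.1 2⟩⟩
    · exact ⟨true, (S.cvx c).1.isPreconnected.intermediate_value h0.1 hy hc ⟨h0'.2 2, h2⟩⟩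
  have box : ∀ y ∈ S.Q.cell c, lo 2 ≤ g.toFun y 2 → g.toFun y 2 ≤ hi 2 → g.toFun y ∈ Icc lo hi :=
    fun y hy h1 h2 => ⟨fun k => if hk : k = 2 then hk ▸ h1 else (lat y hy k hk).1.le,
      fun k => if hk : k = 2 then hk ▸ h2 else (lat y hy k hk).2.le⟩
  have l2 := hlo 2
  have hv : sd lo hi s 2 = lo 2 ∨ sd lo hi s 2 = hi 2 := by
    cases s
    · exact Or.inl rfl
    · exact Or.inr rfl
  obtain ⟨c₃, d3, h3⟩ := (dim3.top S hΩ).2 c
  rcases hR (by decide) 2 (by decide) s id c₃ d3 z (h3 hz)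
    (box z hz (by rcases hv with e | e <;> linarith) (by rcases hv with e | e <;> linarith)) hs
    with ⟨h4, h5⟩ | ⟨k, h4, h5⟩
  · have h6 := (ali S g c₃ h4).1 c h3
    obtain ⟨y, hy, h7⟩ : ∃ y ∈ S.Q.cell c, g.toFun y ∉ Icc lo hi := by
      by_contra h
      push Not at h
      exact hG (Or.inr ⟨h, h6⟩)
    have h8 : g.toFun y 2 < lo 2 ∨ hi 2 < g.toFun y 2 := by
      by_contra h
      push Not at h
      exact h7 (box y hy h.1 h.2)
    have h9 := fun e => (ali S g c h6).2.1 2 (sd lo hi s 2) z₀ h0 e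
      (h5.imp (fun h w hw => h w (h3 hw)) fun h w hw => h w (h3 hw)) y hy
    have o1 := osc y hy z hz 2
    have o2 := osc z hz y hy 2
    have p1 := h0'.1 2
    have p2 := h0'.2 2
    rcases h5 with h5 | h5
    · have q1 := h5 y (h3 hy)
      have q2 := h5 z₀ (h3 h0.1)
      rcases hv with e | e <;> rcases h8 with h8 | h8
      · linarith [h9 (by linarith)]
      all_goals linarith
    · have q1 := h5 y (h3 hy)
      have q2 := h5 z₀ (h3 h0.1)
      rcases hv with e | e <;> rcases h8 with h8 | h8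
      · linarith
      · linarith
      · linarith
      · linarith [h9 (by linarith)]
  · exact hn (Or.inl ⟨k, mem01 h4, h5 x (h3 hx)⟩)

end P073.St3
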