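import Vale.Agent.P073Y.St3.Sk
import Vale.Agent.P073Y.St.Main

/-!
# Normalisation in one box with bounds on all cells: assembly of the blocks
-/

open Set Metric Topology Filter MeasureTheory
open scoped NNReal ENNReal

namespace P073.St3

open P073.Top
open P073.St (STP LAY TRIC HAT stp)

theorem st1_of {p : ℝ} (hP : PICK) (hS : STP) (hE : ENG p) (hT : EST) : ST1 p := by
  obtain ⟨c, c', hc, hE⟩ := hE
  refine ⟨c, hc, fun θ h0 h1 => ?_⟩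
  obtain ⟨CM, hT⟩ := hT θ c' h0 h1
  refine ⟨CM, fun ϑ k0 k1 => ?_⟩
  obtain ⟨K, hK, hP⟩ := hP (ϑ / 4) (by positivity) (by linarith)
  refine ⟨⟨2 * K + 1, by positivity⟩, by
    change (1 : ℝ) ≤ 2 * K + 1
    linarith, ?_⟩
  intro Ω Λ S g lo hi o J Bf Y s 𝓢 ψ a hB hs hm
  obtain ⟨s₁, hs₁, hT⟩ := hT Y s 𝓢 ψ a k0 k1 hs hm
  obtain ⟨A, d, hd, hA, hL, hF⟩ := hP Y s₁ s₁
    (by rwa [show 4 * (ϑ / 4) = ϑ by ring]) hs₁ hs₁
  obtain ⟨hfit, hT⟩ := hT A d hd hA hF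
  obtain ⟨G, hbd, hdr, hG⟩ := hE Y A d (fun k => if k ∈ J then lo k else (lo k + hi k) / 2)
    𝓢 ψ a h0 h1 hA hm hfit
  have ho := Y.pos
  have hstp := fun k (hk : k ∈ J) => hS hA.pos hA.le (by linarith : ϑ / 4 ≤ 1) (hL k hk)
  have hnil : ∀ k, k ∉ J → ∀ y, stp (A k) d y = 0 := fun k hk y => by
    rw [stp, hA.nil k hk, Finset.sum_empty, mul_zero]
  have hKo : 2 * K * o ≤ (2 * K + 1) * o := by nlinarith
  refine ⟨G, fun k y => (if k ∈ J then lo k else (lo k + hi k) / 2) + stp (A k) d y, ⟨hbd,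
    fun k => ?_, fun k => ?_, fun k => ?_, fun k hk y hy => ?_,
    fun k hk y => ?_, fun x hx k hk => ?_⟩, hT p c _ hG⟩
  · by_cases hk : k ∈ J
    · exact (hstp k hk).1.const_add _
    · intro y y' _
      simp only [hnil k hk, le_refl]
  · by_cases hk : k ∈ J
    · exact ⟨continuousOn_const.add (hstp k hk).2.1.1,
        (conicalOn_const _ (IsOpen.conicalSet isOpen_univ)).add (hstp k hk).2.1.2⟩
    · simp only [hnil k hk]
      exact ⟨continuousOn_const, conicalOn_const _ (IsOpen.conicalSet isOpen_univ)⟩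
  · refine LipschitzWith.of_dist_le_mul fun y y' => ?_
    rw [dist_add_left]
    by_cases hk : k ∈ J
    · exact (hstp k hk).2.2.1.dist_le_mul y y'
    · rw [hnil k hk, hnil k hk, dist_self]
      positivity
  · simp only [if_pos hk]
    exact ((hstp k hk).2.2.2.2 y hy y ((hstp k hk).2.2.2.1 y)).trans hKo
  · simp only [if_neg hk, hnil k hk, add_zero]
  · obtain ⟨y, hy, hd, hk'⟩ := hdr x hx
    have e1 := (hstp k hk).2.2.2.2 (y k) ⟨hy.1 k, hy.2 k⟩ _ (hk' k)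
    have e2 : |y k - g.toFun x k| ≤ o := (dist_le_pi_dist y (g.toFun x) k).trans hd
    simp only [if_pos hk]
    change _ ≤ (2 * K + 1) * o
    have := abs_sub_le (lo k + stp (A k) d (G.toFun x k)) (y k) (g.toFun x k)
    linarith

theorem Res.mono {Ω : Set E3} {C : ℝ≥0} {CM : ℝ≥0 → ℝ≥0} {S : Src Ω} {g h : E3 → E3}
    {lo hi : E3} {o : ℝ} {η η' : ℝ≥0∞} (H : Res C CM S g h lo hi o η) (hη : η ≤ η') :
    Res C CM S g h lo hi o η' :=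
  ⟨fun e he => (H.wire e he).trans (add_le_add le_rfl hη),
    fun φ hφ => (H.keep φ hφ).trans (add_le_add le_rfl hη),
    fun φ hφ hd => (H.gain φ hφ hd).trans (add_le_add le_rfl hη)⟩

theorem stage0_of {p : ℝ} (h1 : LAY) (h2 : TRIC) (h3 : AMK) (h4 : SITE) (h5 : ST1 p) (h6 : HAT)
    (h7 : FINB) (h8 : FINC p) : STG p fun J => (2 : Fin 3) ∉ J := by
  obtain ⟨c, hc, h5⟩ := h5
  obtain ⟨C₁, hC₁, h6⟩ := h6
  refine ⟨4 * c, by linarith, fun θ h0 hθ => ?_⟩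
  obtain ⟨CM₁, h5⟩ := h5 θ h0 hθ
  obtain ⟨C, CM, hC, h7⟩ := h7 C₁ CM₁
  refine ⟨C, CM, hC₁.trans hC, fun ϑ k0 k1 => ?_⟩
  obtain ⟨K, hK, h5⟩ := h5 ϑ k0 k1
  have hK' : (1 : ℝ) ≤ K := hK
  have hC' : (1 : ℝ) ≤ C₁ := hC₁
  refine ⟨5 * C₁ * K, by
    change (1 : ℝ) ≤ 5 * C₁ * K
    nlinarith, ?_⟩
  intro Ω Λ S g lo hi μ o J Bf η 𝓢 ψ a hF hΩ hΛ hJ ho hμ hw hw' hsub hosc hB hR hη hm
  push_cast at hμ
  have e0 : 0 < (K : ℝ) * o := by positivity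
  have e1 : 5 * ((K : ℝ) * o) ≤ μ := by nlinarith
  have e2 : 2 * o ≤ μ := by nlinarith
  have hbox : Icc lo hi ⊆ mbox lo hi μ :=
    Icc_subset_Icc (fun i => by linarith) fun i => by linarith
  have hlt : ∀ i, lo i < hi i := fun i => by linarith [hw i]
  have hw2 : ∀ i, lo i + 2 * o ≤ hi i := fun i => by linarith [hw i]
  obtain ⟨L⟩ := h1 lo hi o J ho hw2 hJ
  have := L.fin
  obtain ⟨τ⟩ := h2 S g L.P hΩ (by rw [L.carrier]; exact hbox.trans hsub)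
  obtain ⟨am⟩ := h3 S g τ L.carrier
  obtain ⟨Y⟩ := h4 S g τ am L.carrier L.sub hF hΩ ho hw2 hJ
    (fun c hc => hosc c (hc.mono (inter_subset_inter_right _ hbox))) hR
  obtain ⟨s₁, hs₁, hs₁'⟩ : ∃ s₁ : ℝ≥0, 0 < s₁ ∧ 2 * (s₁ : ℝ≥0∞) ≤ η := by
    obtain ⟨r, r0, r1⟩ := ENNReal.lt_iff_exists_nnreal_btwn.1 hη
    refine ⟨r / 2, half_pos (by exact_mod_cast r0), le_trans (le_of_eq ?_) r1.le⟩
    exact_mod_cast mul_div_cancel₀ r two_ne_zero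
  obtain ⟨s₂, hs₂, h8⟩ := h8 Y η 𝓢 ψ a hη h0 (by linarith : 0 ≤ c) hm
  obtain ⟨G, ξ, hP, hE⟩ := h5 Y (min s₁ s₂) 𝓢 ψ a hB (lt_min hs₁ hs₂) hm
  obtain ⟨h, Ψ, D, q1, q2, q3, q4⟩ :=
    h6 g G ξ (min s₁ s₂) hΩ hΛ e0 e1 hlt hw' hsub (lt_min hs₁ hs₂) hP
  refine ⟨h, Ψ, St.Coll.weaken q1 hC, q2, fun x hx => (q3 x hx).trans ?_,
    (h7 Y _ hE q4).mono (le_trans ?_ hs₁'), fun _ => h8 _ (min_le_right _ _) hE q4⟩
  · push_cast
    nlinarith [mul_nonneg C₁.2 e0.le]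
  · gcongr
    exact min_le_left _ _

end P073.St3
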