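import Vale.Agent.P073Y.St3.Sk
import Vale.Agent.P073Y.St.Perm

/-!
# Exchange of coordinates
-/

open Set Metric Topology Filter
open scoped NNReal ENNReal

namespace P073.St3

open P073.Top P073.St.Pm

namespace Pe

variable {Ω : Set E3} {S : Src Ω} {g : E3 → E3} {k : Fin 3}

theorem A_sw (S : Src Ω) (g : E3 → E3) (φ : S.Q.ι) : S.A (sw k ∘ g) φ = S.A g φ := by
  simp only [Src.A, lipc_sw]

theorem ali_sw {c : S.Q.ι} (h : B.Ali S g c) : B.Ali S (sw k ∘ g) c := by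
  obtain ⟨⟨A, hA⟩, h⟩ := h
  refine ⟨⟨(LinearMap.funLeft ℝ ℝ (Equiv.swap 2 k)).toAffineMap.comp A,
    fun x hx => congrArg (sw k) (hA hx)⟩, fun φ hφ => ?_⟩
  obtain ⟨a, b, e⟩ := h φ hφ
  refine ⟨sw k a, sw k b, ?_⟩
  rw [image_comp, e]
  exact Subset.antisymm (fun _ ⟨y, hy, e⟩ => e ▸ mem_Icc_sw.2 hy)
    fun y hy => ⟨sw k y, mem_Icc_sw.1 (by rwa [sw_sw]), sw_sw y⟩

theorem rl_sw {lo hi : E3} {J : Finset (Fin 3)} {Bf : Fin 3 → Set ℝ} (h : Rl S g lo hi J Bf) :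
    Rl S (sw k ∘ g) (sw k lo) (sw k hi) (dir k J) fun j => Bf (Equiv.swap 2 k j) := by
  intro hJ i h0 s hs c hc x hx h1 h2
  have e : B.sd (sw k lo) (sw k hi) s i = B.sd lo hi s (Equiv.swap 2 k i) := by cases s <;> rfl
  rw [e] at h2 ⊢
  rcases h (by simpa [dir] using hJ) _ (fun hc => h0 (mem_dir.2 hc)) s hs c hc x hx
    (mem_Icc_sw.1 h1) h2 with ⟨h3, h4⟩ | ⟨j, hj, h3⟩
  · exact Or.inl ⟨ali_sw h3, h4⟩
  · exact Or.inr ⟨Equiv.swap 2 k j, fun e => hj (by simp [← e]), by simpa [sw] using h3⟩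

end Pe

open Pe in
theorem perm : PERM := by
  intro p H
  obtain ⟨c, hc, H⟩ := H
  refine ⟨c, hc, fun θ h0 h1 => ?_⟩
  obtain ⟨C, CM, hC, H⟩ := H θ h0 h1
  refine ⟨C, CM, hC, fun ϑ h2 h3 => ?_⟩
  obtain ⟨K, hK, H⟩ := H ϑ h2 h3
  refine ⟨K, hK, ?_⟩
  intro Ω Λ S g lo hi μ o J Bf η 𝓢 ψ a hF hΩ hΛ hJ ho hμ hlo hw hm hosc hT hR hη hS
  by_cases h2J : (2 : Fin 3) ∈ J
  swap
  · exact H S g lo hi μ o J Bf η 𝓢 ψ a hF hΩ hΛ h2J ho hμ hlo hw hm hosc hT hR hη hS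
  obtain ⟨k, hk⟩ : ∃ k, k ∉ J := by
    by_contra hcon
    have : J = Finset.univ := Finset.eq_univ_of_forall fun k => by
      by_contra hk; exact hcon ⟨k, hk⟩
    rw [this] at hJ
    simp at hJ
  obtain ⟨h, Ψ, c1, c2, c3, ⟨c4, c5, c6⟩, -⟩ := H S (g.trans (con k hΛ)) (sw k lo) (sw k hi) μ o
    (dir k J) (fun j => Bf (Equiv.swap 2 k j)) η ∅ ψ a hF hΩ (hΛ.preimage cont_sw)
    (fun hc => hk (by simpa using mem_dir.1 hc)) ho hμ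
    (fun i => hlo _) (fun i hi => hw _ fun hc => hi (mem_dir.2 hc))
    (fun y hy => hm (mem_mbox_sw.1 (by rwa [sw_sw])))
    (fun c hc x hx y hy => by
      obtain ⟨_, ⟨u, hu, rfl⟩, hz⟩ := hc
      exact (dist_sw _ _).trans_le (hosc c ⟨_, ⟨u, hu, rfl⟩, mem_mbox_sw.1 hz⟩ x hx y hy))
    (fun j => hT _) (rl_sw hR) hη (fun φ hφ => hφ.elim)
  have e1 : (g.trans (con k hΛ)).toFun = sw k ∘ g.toFun := rfl
  have e2 : (h.trans (con k hΛ).symm).toFun = sw k ∘ h.toFun := rfl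
  rw [e1] at c2 c3 c4 c5 c6
  simp only [lipc_sw, A_sw] at c4 c5 c6
  refine ⟨h.trans (con k hΛ).symm, _, coll_sw c1, fun x hx hg => ?_, fun x hx => ?_,
    ⟨fun e he => ?_, fun φ hφ => ?_, fun φ hφ ha => ?_⟩, fun hJ' => ?_⟩
  · rw [e2, Function.comp, c2 x hx fun hc => hg (mem_int_sw.1 hc), Function.comp, sw_sw]
  · rw [e2]
    exact (dist_sw _ _).trans_le (c3 x hx)
  · rw [e2, lipc_sw]
    exact c4 e he
  · rw [e2, lipc_sw]
    exact c5 φ hφ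
  · rw [e2, lipc_sw]
    exact c6 φ hφ fun x hx i => ha x hx _
  · rw [hJ'] at h2J
    simp at h2J

end P073.St3
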