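import Vale.Agent.P073Y.St.Stp
import Vale.Agent.P073Y.B.Defs

/-!
# Levels which avoid a thin set
-/

open Set Metric MeasureTheory Filter Topology

namespace P073.St3

open P073.St P073.B

namespace Lev3

theorem shift {B : Set ℝ} (hB : MeasurableSet B) (a : ℝ) {δ : ℝ} (hδ : 0 < δ) (n : ℕ) :
    ∃ ξ ∈ Ioc 0 δ, δ * ∑ j ∈ Finset.range n, B.indicator 1 (a + j * δ + ξ) ≤
      volume.real (B ∩ Icc a (a + n * δ)) := by
  have hi : ∀ x y, IntervalIntegrable (B.indicator (1 : ℝ → ℝ)) volume x y := fun x y =>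
    ⟨(integrableOn_const (by simp)).indicator hB, (integrableOn_const (by simp)).indicator hB⟩
  have h1 : ∀ j : ℕ, IntervalIntegrable (fun ξ => B.indicator (1 : ℝ → ℝ) (a + j * δ + ξ))
      volume 0 δ := fun j => by
    simpa using (hi (a + j * δ) (δ + (a + j * δ))).comp_add_left (a + j * δ)
  obtain ⟨ξ, h2, h3⟩ := exists_le_setAverage (μ := volume) (s := Ioc 0 δ) (by simpa) (by simp)
    (integrable_finsetSum (Finset.range n) fun j _ => (h1 j).1)
  refine ⟨ξ, h2, ?_⟩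
  rw [setAverage_eq, ← intervalIntegral.integral_of_le hδ.le,
    intervalIntegral.integral_finsetSum fun j _ => h1 j] at h3
  simp only [intervalIntegral.integral_comp_add_left (B.indicator (1 : ℝ → ℝ))] at h3
  have h4 := intervalIntegral.sum_integral_adjacent_intervals (a := fun j : ℕ => a + j * δ)
    (n := n) fun j _ => hi _ _
  simp only [Nat.cast_add, Nat.cast_one, add_mul, one_mul, ← add_assoc, Nat.cast_zero, zero_mul,
    add_zero] at h3 h4
  rw [h4, intervalIntegral.integral_of_le (le_add_of_nonneg_right (by positivity)),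
    integral_indicator_one hB, measureReal_restrict_apply hB] at h3
  simp only [Real.volume_real_Ioc_of_le hδ.le, sub_zero, smul_eq_mul] at h3
  rw [le_inv_mul_iff₀ hδ] at h3
  exact h3.trans (measureReal_mono (inter_subset_inter_right _ Ioc_subset_Icc_self)
    (measure_ne_top_of_subset inter_subset_right measure_Icc_lt_top.ne))

theorem period {B : Set ℝ} (hB : MeasurableSet B) (a : ℝ) {δ l : ℝ} (hδ : 0 < δ) (hl : 0 ≤ l)
    {N : ℕ} (h : (N + 1) * δ + volume.real (B ∩ Icc a (a + l)) ≤ l) : ∃ t : Fin N → ℝ,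
    (∀ j, a ≤ t j ∧ t j ≤ a + l) ∧ (∀ i j, i ≠ j → δ ≤ |t i - t j|) ∧ ∀ j, t j ∉ B := by
  classical
  obtain ⟨n, n1, n2⟩ : ∃ n : ℕ, n * δ ≤ l ∧ l ≤ (n + 1) * δ :=
    ⟨⌊l / δ⌋₊, (le_div_iff₀ hδ).1 (Nat.floor_le (by positivity)),
      (div_le_iff₀ hδ).1 (Nat.lt_floor_add_one _).le⟩
  obtain ⟨ξ, h1, h2⟩ := shift hB a hδ n
  have h3 := h2.trans (measureReal_mono (inter_subset_inter_right B (Icc_subset_Icc_right
    (show _ ≤ a + l by linarith)))
    (measure_ne_top_of_subset inter_subset_right measure_Icc_lt_top.ne))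
  simp only [indicator_apply, Pi.one_apply, Finset.sum_boole] at h3
  have h4 := Finset.card_filter_add_card_filter_not (s := Finset.range n)
    fun j => a + j * δ + ξ ∈ B
  rw [Finset.card_range] at h4
  have h5 : N ≤ ((Finset.range n).filter fun j : ℕ => ¬ a + j * δ + ξ ∈ B).card := by
    have h6 := congrArg (Nat.cast (R := ℝ)) h4
    push_cast at h6
    exact_mod_cast le_of_mul_le_mul_right (a := δ) (by nlinarith :
      (N : ℝ) * δ ≤ ((Finset.range n).filter fun j : ℕ => ¬ a + j * δ + ξ ∈ B).card * δ) hδ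
  obtain ⟨G, hG, hc⟩ := Finset.exists_subset_card_eq h5
  have hm := fun j => Finset.mem_filter.1 (hG (G.orderEmbOfFin_mem hc j))
  refine ⟨fun j => a + G.orderEmbOfFin hc j * δ + ξ, fun j => ⟨?_, ?_⟩, fun i j hij => ?_,
    fun j => (hm j).2⟩
  · linarith [h1.1, mul_nonneg (Nat.cast_nonneg (G.orderEmbOfFin hc j)) hδ.le]
  · have : (G.orderEmbOfFin hc j : ℝ) + 1 ≤ n := by exact_mod_cast Finset.mem_range.1 (hm j).1
    nlinarith [h1.2]
  · rcases lt_or_gt_of_ne ((G.orderEmbOfFin hc).injective.ne hij) with e | e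
    · have : (G.orderEmbOfFin hc i : ℝ) + 1 ≤ G.orderEmbOfFin hc j := by exact_mod_cast e
      exact le_abs.2 (Or.inr (by nlinarith))
    · have : (G.orderEmbOfFin hc j : ℝ) + 1 ≤ G.orderEmbOfFin hc i := by exact_mod_cast e
      exact le_abs.2 (Or.inl (by nlinarith))

theorem fat {Z : Set ℝ} (hZ : IsCompact Z) {o : ℝ} (ho : 0 < o) :
    ∃ ρ > 0, volume (cthickening ρ Z \ Z) ≤ ENNReal.ofReal o := by
  have h := (tendsto_measure_cthickening_of_isCompact (μ := volume) hZ).eventually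
    (Iio_mem_nhds (ENNReal.lt_add_right hZ.measure_ne_top (ENNReal.ofReal_pos.2 ho).ne'))
  obtain ⟨ρ, h1, h2⟩ := ((h.filter_mono nhdsWithin_le_nhds).and
    (self_mem_nhdsWithin (s := Ioi 0))).exists
  refine ⟨ρ, h2, ?_⟩
  rw [measure_sdiff (self_subset_cthickening Z) hZ.measurableSet.nullMeasurableSet
    hZ.measure_ne_top]
  exact tsub_le_iff_left.2 h1.le

end Lev3

open Lev3

/-- levels which avoid a thin set -/
theorem lev3 (ϑ : ℝ) (h0 : 0 < ϑ) (h1 : ϑ ≤ 1) : ∃ K : ℝ, 1 ≤ K ∧ ∀ (lo hi o : ℝ) (Z : Set ℝ),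
    lo ≤ hi → 0 < o → Thin Z o (4 * ϑ) → ∃ d₀ : ℝ, 0 < d₀ ∧ ∀ d, 0 < d → d ≤ d₀ →
    ∀ T : Set ℝ, T.Finite → ∃ A : Finset ℝ, Levs lo hi o d ϑ K Z A ∧ ∀ t ∈ A, t ∉ T := by
  classical
  refine ⟨91 / ϑ, (le_div_iff₀ h0).2 (by linarith), fun lo hi o Z hle ho hZ => ?_⟩
  obtain ⟨ρ, hρ, hf⟩ := fat ((isCompact_Icc (a := lo - 1) (b := hi + 1)).inter_left hZ.1) ho
  refine ⟨min o (min ρ 1), by positivity, fun d hd hd0 T hT => ?_⟩
  simp only [le_min_iff] at hd0
  obtain ⟨N, hN1, hN2⟩ : ∃ N : ℕ, 90 * o ≤ ϑ * (N * d) ∧ N * d ≤ 91 / ϑ * o := by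
    refine ⟨⌈90 * o / ϑ / d⌉₊, ?_, ?_⟩
    · have := Nat.le_ceil (90 * o / ϑ / d)
      rwa [div_le_iff₀ hd, div_le_iff₀' h0] at this
    · have h2 := (Nat.ceil_lt_add_one (show 0 ≤ 90 * o / ϑ / d by positivity)).le
      have h3 : o ≤ o / ϑ := (le_div_iff₀ h0).2 (by nlinarith)
      calc _ ≤ (90 * o / ϑ / d + 1) * d := by gcongr
        _ = 90 * (o / ϑ) + d := by field_simp
        _ ≤ 91 * (o / ϑ) := by linarith
        _ = _ := by ring
  obtain ⟨b, hb⟩ : ∃ b, b = N * d := ⟨_, rfl⟩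
  rw [← hb] at hN1 hN2
  have hb0 : 0 < b := by nlinarith
  have hϑd : ϑ * d ≤ d := by nlinarith
  have hϑb : ϑ * b ≤ b := by nlinarith
  have hv : ∀ a, volume.real ((cthickening ρ (Z ∩ Icc (lo - 1) (hi + 1)) ∪ T) ∩
      Icc a (a + (b - 8 * o))) ≤ ϑ * b / 4 + 2 * o := fun a => by
    refine ENNReal.toReal_le_of_le_ofReal (by positivity) ((measure_mono (t := (Z ∩
      Icc a (a + b) ∪ (cthickening ρ (Z ∩ Icc (lo - 1) (hi + 1)) \ (Z ∩ Icc (lo - 1) (hi + 1)))) ∪
      T) ?_).trans ((measure_union_le _ _).trans ?_))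
    · rintro x ⟨h | h, h'⟩
      · by_cases e : x ∈ Z ∩ Icc (lo - 1) (hi + 1)
        · exact Or.inl (Or.inl ⟨e.1, h'.1, by linarith [h'.2]⟩)
        · exact Or.inl (Or.inr ⟨h, e⟩)
      · exact Or.inr h
    · rw [hT.measure_zero, add_zero]
      refine (measure_union_le _ _).trans ((add_le_add (hZ.2 a b hb0.le) hf).trans_eq ?_)
      rw [← ENNReal.ofReal_add (by positivity) ho.le]
      congr 1
      ring
  choose t t1 t2 t3 using fun m : ℕ => period
    (isClosed_cthickening.measurableSet.union hT.measurableSet) (lo + m * b + 4 * o)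
    (δ := d - ϑ * d / 2) (by linarith) (by linarith) (N := N)
    (le_trans (add_le_add le_rfl (hv _)) (by nlinarith [mul_pos h0 hd]))
  have r : ∀ (m : ℕ) j, lo + m * b + 4 * o ≤ t m j ∧ t m j ≤ lo + (m + 1) * b - 4 * o :=
    fun m j => ⟨(t1 m j).1, by linarith [(t1 m j).2]⟩
  have lt : ∀ {m m' : ℕ}, m < m' → ∀ j, t m j ≤ lo + m' * b - 4 * o := fun {m m'} h j => by
    have : (m : ℝ) + 1 ≤ m' := by exact_mod_cast h
    nlinarith [(r m j).2]
  have ge : ∀ {m m' : ℕ}, m' ≤ m → ∀ j, lo + m' * b + 4 * o ≤ t m j := fun {m m'} h j => by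
    have : (m' : ℝ) ≤ m := by exact_mod_cast h
    nlinarith [(r m j).1]
  have sp : ∀ q q' : ℕ × Fin N, q ≠ q' → d - ϑ * d / 2 ≤ |t q.1 q.2 - t q'.1 q'.2| := by
    rintro ⟨m, j⟩ ⟨m', j'⟩ h
    rcases lt_trichotomy m m' with e | rfl | e
    · exact le_abs.2 (Or.inr (by linarith [lt e j, (r m' j').1, mul_pos h0 hd]))
    · exact t2 m j j' fun e => h (by rw [e])
    · exact le_abs.2 (Or.inl (by linarith [lt e j', (r m j).1, mul_pos h0 hd]))
  have fl : ∀ y, lo ≤ y → ∃ m : ℕ, m = ⌊(y - lo) / b⌋₊ ∧ lo + m * b ≤ y ∧ y < lo + (m + 1) * b :=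
    fun y hy => ⟨_, rfl, by
      have := Nat.floor_le (div_nonneg (sub_nonneg.2 hy) hb0.le)
      rw [le_div_iff₀ hb0] at this
      linarith, by
      have := Nat.lt_floor_add_one ((y - lo) / b)
      rw [div_lt_iff₀ hb0] at this
      linarith⟩
  obtain ⟨n, hn, n1, -⟩ := fl hi hle
  let B : ℕ → Finset ℝ := fun k =>
    (Finset.range k ×ˢ Finset.univ).image fun q : ℕ × Fin N => t q.1 q.2
  have mem : ∀ {k x}, x ∈ B k ↔ ∃ m < k, ∃ j, t m j = x := by simp [B]
  have card : ∀ k, d * ((B k).card : ℕ) = k * b := fun k => by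
    rw [Finset.card_image_of_injective _ fun q q' e => by_contra fun h => by
      have := sp q q' h
      rw [show t q.1 q.2 = t q'.1 q'.2 from e, sub_self, abs_zero] at this
      linarith]
    simp [hb]
    ring
  have ins : ∀ x ∈ B n, lo + 3 * o < x ∧ x < hi - 3 * o := fun x hx => by
    obtain ⟨m, hm, j, rfl⟩ := mem.1 hx
    exact ⟨by simpa using (by linarith [ge (Nat.zero_le m) j] : lo + (0 : ℕ) * b + 3 * o < t m j),
      by linarith [lt hm j]⟩
  have buf : ∀ k : ℕ, ∀ x ∈ B n, 3 * o < |x - (lo + k * b)| := fun k x hx => by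
    obtain ⟨m, -, j, rfl⟩ := mem.1 hx
    rcases lt_or_ge m k with h | h
    · exact lt_abs.2 (Or.inr (by linarith [lt h j]))
    · exact lt_abs.2 (Or.inl (by linarith [ge h j]))
  refine ⟨B n, ⟨fun x hx z hz => not_le.1 fun h => ?_, ins, fun x hx x' hx' e => ?_,
    fun y hy => ?_, fun y hy => ?_⟩, fun x hx => ?_⟩
  · have h2 := ins x hx
    have h3 := abs_le.1 h
    obtain ⟨m, -, j, rfl⟩ := mem.1 hx
    exact t3 m j (Or.inl (mem_cthickening_of_dist_le _ z _ _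
      ⟨hz, by linarith [h2.1], by linarith [h2.2]⟩ (h.trans (by linarith))))
  · obtain ⟨m, -, j, rfl⟩ := mem.1 hx
    obtain ⟨m', -, j', rfl⟩ := mem.1 hx'
    have h2 := sp (m, j) (m', j') fun h => e (by cases h; rfl)
    refine le_trans ?_ (mul_le_mul_of_nonneg_left h2 (by linarith))
    nlinarith [mul_pos h0 hd]
  · obtain ⟨m, -, m1, m2⟩ := fl y hy.1
    have h2 : (0 : ℝ) ≤ m * b := by positivity
    refine ⟨lo + m * b, ⟨by linarith, m1.trans hy.2⟩, min hi (lo + (m + 1 : ℕ) * b),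
      ⟨le_min hle (le_add_of_nonneg_right (by positivity)), min_le_left _ _⟩, m1,
      le_min hy.2 (by push_cast; exact m2.le), (min_le_right _ _).trans (by push_cast; linarith),
      fun x hx => ⟨buf m x hx, ?_⟩⟩
    rcases min_choice hi (lo + (m + 1 : ℕ) * b) with h | h <;> rw [h]
    · exact lt_abs.2 (Or.inr (by linarith [(ins x hx).2]))
    · exact buf _ x hx
  · obtain ⟨m, hm, m1, m2⟩ := fl y hy.1
    have mn : m ≤ n := by
      rw [hm, hn]
      gcongr
      exact hy.2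
    have h2 : (B m).card ≤ ((B n).filter fun t => t ≤ y).card := Finset.card_le_card fun x hx => by
      obtain ⟨k, hk, j, rfl⟩ := mem.1 hx
      exact Finset.mem_filter.2 ⟨mem.2 ⟨k, by omega, j, rfl⟩, by linarith [lt hk j]⟩
    have h3 : ((B n).filter fun t => t ≤ y).card ≤ (B (m + 1)).card :=
      Finset.card_le_card fun x hx => by
        obtain ⟨hx, hxy⟩ := Finset.mem_filter.1 hx
        obtain ⟨k, -, j, rfl⟩ := mem.1 hx
        refine mem.2 ⟨k, not_le.1 fun h => ?_, j, rfl⟩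
        have := ge h j
        push_cast at this
        linarith
    have h4 := mul_le_mul_of_nonneg_left (Nat.cast_le (α := ℝ).2 h2) hd.le
    have h5 := mul_le_mul_of_nonneg_left (Nat.cast_le (α := ℝ).2 h3) hd.le
    rw [card] at h4 h5
    push_cast at h5
    exact abs_le.2 ⟨by linarith, by linarith⟩
  · obtain ⟨m, -, j, rfl⟩ := mem.1 hx
    exact fun h => t3 m j (Or.inr h)

theorem thin_mono {Z : Set ℝ} {o o' ϑ ϑ' : ℝ} (h : Thin Z o ϑ) (ho : o ≤ o') (hϑ : ϑ ≤ ϑ') :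
    Thin Z o' ϑ' := ⟨h.1, fun y l hl => (h.2 y l hl).trans (by gcongr)⟩

theorem thin_union {Z Y : Set ℝ} {o o' ϑ : ℝ} (h : Thin Z o ϑ) (ho : 0 ≤ o) (hϑ : 0 ≤ ϑ)
    (ho' : 0 ≤ o') (hY : IsClosed Y) (hv : volume Y ≤ ENNReal.ofReal o') :
    Thin (Z ∪ Y) (o + o') ϑ := ⟨h.1.union hY, fun y l hl => by
  rw [union_inter_distrib_right, ← add_assoc, ENNReal.ofReal_add (by positivity) ho']
  exact (measure_union_le _ _).trans
    (add_le_add (h.2 y l hl) ((measure_mono inter_subset_left).trans hv))⟩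

/-- small intervals round finitely many values -/
theorem thin_fin {Z V : Set ℝ} {o o' ϑ : ℝ} (h : Thin Z o ϑ) (ho : 0 ≤ o) (hϑ : 0 ≤ ϑ)
    (ho' : 0 < o') (hV : V.Finite) : ∃ ρ > 0, Thin (Z ∪ cthickening ρ V) (o + o') ϑ := by
  obtain ⟨ρ, h1, h2⟩ := fat hV.isCompact ho'
  exact ⟨ρ, h1, thin_union h ho hϑ ho'.le isClosed_cthickening
    ((measure_sdiff_null (hV.measure_zero _)).ge.trans h2)⟩

theorem levs_mono {lo hi o o' d ϑ K K' : ℝ} {Z Z' : Set ℝ} {A : Finset ℝ}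
    (h : Levs lo hi o d ϑ K Z A) (ho : o' ≤ o) (hK : K * o ≤ K' * o') (hZ : Z' ⊆ Z) :
    Levs lo hi o' d ϑ K' Z' A where
  far t ht z hz := h.far t ht z (hZ hz)
  ins t ht := ⟨by linarith [(h.ins t ht).1], by linarith [(h.ins t ht).2]⟩
  sep := h.sep
  buf y hy := by
    obtain ⟨κ, h1, κ', h2, h3, h4, h5, h6⟩ := h.buf y hy
    exact ⟨κ, h1, κ', h2, h3, h4, by linarith,
      fun t ht => ⟨by linarith [(h6 t ht).1], by linarith [(h6 t ht).2]⟩⟩
  cnt y hy := (h.cnt y hy).trans hK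

end P073.St3
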