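import Vale.Agent.P073Y.St3.Sk
import Vale.Agent.P073Y.St3.Lev3
import Vale.Agent.P073Y.St.Pick

/-!
# The choice of the levels
-/

open Set Metric Topology Filter MeasureTheory
open scoped NNReal ENNReal

namespace P073.St3

open P073.Bd (Gen1)
open P073.Top
open P073.St (Levs pts)
open P073.St.Pick

theorem pick : PICK := by
  intro ϑ hϑ hϑ1
  obtain ⟨K, hK, h1⟩ := lev3 ϑ hϑ hϑ1
  refine ⟨K, hK, fun {Ω Λ S g lo hi o J Bf} Y s d₁ hB hs hd₁ => ?_⟩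
  classical
  have := Y.fin
  choose d₀ h2 h3 using fun k => h1 (lo k) (hi k) o (Y.Z ∪ Bf k) (Y.lt k).le Y.pos (by
    simpa only [add_zero, union_comm] using thin_union (hB k) Y.pos.le (by positivity) le_rfl
      Y.Zfin.isClosed ((Y.Zfin.measure_zero _).trans_le zero_le))
  choose m hm using fun (k : Fin 3) (e : S.Q.ι) => St.cnt (plOn_coord g (S.Q.ball e).conicalSet
    ((S.Q.cell_subset_carrier e).trans S.carrier.subset) k)
  have hfin : {e | S.Q.cell e ⊆ St.pre g (Icc lo hi)}.Finite :=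
    S.Q.finite_subset Y.ball.isCompact ((sep_subset _ _).trans S.carrier.superset)
  obtain ⟨M, hM⟩ := (hfin.image fun e => m 0 e + m 1 e).bddAbove
  obtain ⟨d, hd⟩ : ∃ d, d = min (min d₁ o) (min (min (d₀ 0) (d₀ 1)) (s / (M + 1))) := ⟨_, rfl⟩
  have d0 : 0 < d := by
    have := Y.pos; have := h2 0; have := h2 1
    rw [hd]; positivity
  obtain ⟨⟨d1, d2⟩, ⟨d3, d4⟩, d5⟩ : (d ≤ d₁ ∧ d ≤ o) ∧ (d ≤ d₀ 0 ∧ d ≤ d₀ 1) ∧ d ≤ s / (M + 1) := by
    simpa only [le_min_iff] using hd.le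
  have hg : ∀ k, PLOn (fun x => g.toFun x k) Y.K.carrier := fun k => by
    rw [Y.carrier, ← Y.gC_eq]
    exact plOn_coord Y.gC Y.ball.conicalSet Subset.rfl k
  choose T hT hG using fun k => (Bd.gen Y.K (hg k)).1
  have one : ∀ k, d ≤ d₀ k → ∀ W : Set ℝ, W.Finite → ∃ A : Finset ℝ, (k ∉ J → A = ∅) ∧
      (k ∈ J → Levs (lo k) (hi k) o d ϑ K (Y.Z ∪ Bf k) A) ∧ ∀ t ∈ A, t ∉ W := fun k hk W hW => by
    by_cases hJ : k ∈ J
    · obtain ⟨A, a1, a2⟩ := h3 k d d0 hk W hW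
      exact ⟨A, fun h => (h hJ).elim, fun _ => a1, a2⟩
    · exact ⟨∅, fun _ => rfl, fun h => (hJ h).elim, by simp⟩
  obtain ⟨A₀, a1, a2, a3⟩ := one 0 d3 _ (hT 0)
  choose W hW hW' using fun t : A₀ => (Bd.gen Y.K (hg 1)).2 _ (hG 0 t (a3 t t.2))
  obtain ⟨A₁, b1, b2, b3⟩ := one 1 d4 _ ((hT 1).union (finite_iUnion hW))
  have c1 : ∀ k, k ∉ J → ![A₀, A₁, ∅] k = ∅ := fun k => by
    fin_cases k
    exacts [a1, b1, fun _ => rfl]
  have c2 : ∀ k ∈ J, Levs (lo k) (hi k) o d ϑ K (Y.Z ∪ Bf k) (![A₀, A₁, ∅] k) := fun k => by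
    fin_cases k
    exacts [a2, b2, fun h => (Y.notJ h).elim]
  have c3 : ∀ k, ∀ t ∈ ![A₀, A₁, ∅] k,
      Levs (lo k) (hi k) o d ϑ K (Y.Z ∪ Bf k) (![A₀, A₁, ∅] k) :=
    fun k t ht => c2 k (by_contra fun h => by simp [c1 k h] at ht)
  have c4 : ∀ k, ∀ t ∈ ![A₀, A₁, ∅] k, Gen1 Y.K {x ∈ St.pre g (Icc lo hi) | g.toFun x k = t} :=
    fun k => by
    rw [← Y.carrier]
    fin_cases k
    exacts [fun t ht => hG 0 t (a3 t ht), fun t ht => hG 1 t fun h => b3 t ht (Or.inl h),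
      fun t ht => by simp at ht]
  refine ⟨![A₀, A₁, ∅], d, d1, ⟨d0, d2, c1, fun k t ht => (c3 k t ht).far t ht,
    fun k t ht => (c3 k t ht).ins t ht, fun k t ht t' ht' h => ((c3 k t ht).sep t ht t' ht' h).trans
      (mul_le_mul_of_nonneg_right (by linarith) (abs_nonneg _)), c4, fun t ht t' ht' => ?_⟩, c2,
    fun e x y he hsk => ?_⟩
  · have := hW' ⟨t, ht⟩ t' fun h => b3 t' ht' (Or.inr (mem_iUnion.2 ⟨_, h⟩))
    simpa only [Y.carrier, mem_ofPred_eq, and_assoc] using this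
  generalize ![A₀, A₁, ∅] = A at c3 c4 ⊢
  have hsub : S.Q.cell e ⊆ St.pre g (Icc lo hi) := Y.carrier ▸ hsk.trans (Y.K.skel_subset_carrier 1)
  have f1 : ∀ k, {u ∈ S.Q.cell e | g.toFun u k ∈ A k}.Finite := fun k =>
    ((A k).finite_toSet.biUnion fun t ht => (c4 k t ht).fin).subset fun u hu =>
      mem_biUnion hu.2 ⟨⟨hsub hu.1, rfl⟩, hsk hu.1⟩
  have f2 : pts g lo hi A ∩ S.Q.cell e ⊆
      {u ∈ S.Q.cell e | g.toFun u 0 ∈ A 0} ∪ {u ∈ S.Q.cell e | g.toFun u 1 ∈ A 1} :=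
    fun u hu => hu.1.2.imp (fun h => ⟨hu.2, h⟩) fun h => ⟨hu.2, h⟩
  have f3 : ∀ k, ENNReal.ofReal d * ({u ∈ S.Q.cell e | g.toFun u k ∈ A k}.ncard : ℕ) ≤
      ENNReal.ofReal (1 + ϑ) * segVar (fun u => g.toFun u k) x y + ENNReal.ofReal d * m k e :=
    fun k => by
    have h4 := mul_le_mul_right (hm k e x y he (A k) (d / (1 + ϑ)) (by positivity)
      fun t ht t' ht' h => (div_le_iff₀' (by linarith)).2 ((c3 k t ht).sep t ht t' ht' h))
      (ENNReal.ofReal (1 + ϑ))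
    rwa [mul_add, ← mul_assoc, ← mul_assoc, ← ENNReal.ofReal_mul (by linarith),
      mul_div_cancel₀ _ (by linarith)] at h4
  refine ⟨((f1 0).union (f1 1)).subset f2, ?_⟩
  have f4 := (ncard_le_ncard f2 ((f1 0).union (f1 1))).trans (ncard_union_le _ _)
  refine (mul_le_mul_right (Nat.cast_le.2 f4) _).trans ?_
  rw [Nat.cast_add, mul_add]
  refine (add_le_add (f3 0) (f3 1)).trans ?_
  rw [add_add_add_comm, ← mul_add, ← mul_add, ← Nat.cast_add]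
  refine add_le_add le_rfl ?_
  rw [← ENNReal.ofReal_natCast, ← ENNReal.ofReal_mul d0.le]
  have f5 : ((m 0 e + m 1 e : ℕ) : ℝ) ≤ M := by exact_mod_cast hM (mem_image_of_mem _ hsub)
  rw [le_div_iff₀ (by positivity)] at d5
  exact ENNReal.ofReal_le_ofReal (by nlinarith)

end P073.St3
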