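import Vale.Agent.P073Y.St3.Sk
import Vale.Agent.P073Y.St.Raw

/-!
# The natural bands for the engine
-/

open Set Metric Topology Filter
open scoped NNReal

namespace P073.St3

open P073.Bd (Band cl)
open P073.Top P073.Nt
open P073.St (lv pts)
open P073.St.Rw (co lv_mem lf abs_lf lf_zero)

namespace Rw

variable {Ω Λ : Set E3} {S : Src Ω} {g : ConHomeo Ω Λ} {lo hi : E3} {o : ℝ} {J : Finset (Fin 3)}
  {Bf : Fin 3 → Set ℝ} {Y : Site S g lo hi o J Bf} {A : Fin 3 → Finset ℝ} {d : ℝ}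

theorem lin {c : Y.K.ι} (hc : c ∈ Y.fro) (A : Fin 3 → Finset ℝ) (d : ℝ) :
    Lin (Y.K.cell c) (Y.K.bd c) (lf g A d) := by
  obtain ⟨Q, φ, l, h1, h2, h3⟩ := Y.lin c hc
  refine ⟨Q, φ, fun i => (d / 5)⁻¹ • (l (co A i) - AffineMap.const ℝ E3 (lv A i)), h1, h2,
    fun i x hx => ?_⟩
  have h4 : g.toFun x (co A i) = l (co A i) (φ.toFun x) := h3 _ x hx
  simp only [lf, h4, AffineMap.coe_smul, AffineMap.coe_sub, AffineMap.coe_const, Pi.smul_apply,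
    Pi.sub_apply, Function.const_apply, smul_eq_mul]
  rw [div_eq_inv_mul]

theorem both (h : Adm Y A d) {c : Y.K.ι} (hc : c ∈ Y.fro) (i : A 0 ⊕ A 1) :
    Off (Y.K.cell c) (lf g A d i) ∨ Fl.Both (Y.K.cell c) (lf g A d i) 1 :=
  bothv Y.K (lf g A d) c (fun j hj => lin (Y.face c hc j hj) A d) i fun x hx => by
    rw [← not_le, abs_lf h.pos, not_le, abs_sub_comm]
    exact h.far _ _ (lv_mem i) _ (Or.inl (Y.vert x hx.2 _))

theorem sep (h : Adm Y A d) {i j : A 0 ⊕ A 1} (hij : i ≠ j) (e : i.isLeft = j.isLeft) :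
    co A i = co A j ∧ d ≤ 2 * |lv A i - lv A j| := by
  refine ⟨by rw [co, co, e], ?_⟩
  rcases i with i | i <;> rcases j with j | j
  · exact h.sep 0 _ i.2 _ j.2 fun e' => hij (congrArg _ (Subtype.ext e'))
  · exact absurd e (by simp)
  · exact absurd e (by simp)
  · exact h.sep 1 _ i.2 _ j.2 fun e' => hij (congrArg _ (Subtype.ext e'))

theorem cross (h : Adm Y A d) {c : Y.K.ι} (hc : c ∈ Y.fro) {x : E3} (hx : x ∈ Y.K.cell c)
    (i : A 0) (j : A 1) (h0 : |g.toFun x 0 - i| ≤ d / 5) (h1 : |g.toFun x 1 - j| ≤ d / 5) :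
    ¬ (x ∈ Y.K.bd c ∨ Y.K.dim c ≤ 1 ∨ ¬ Y.K.cell c ⊆ St.pre g (frontier (Icc lo hi))) := by
  intro h2
  have m : ∀ k, (A k).Nonempty → k ∈ J := fun k hk => by
    by_contra h3
    exact hk.ne_empty (h.nil k h3)
  have hJ : J = {0, 1} := by
    ext k
    fin_cases k
    · simpa using m 0 ⟨_, i.2⟩
    · simpa using m 1 ⟨_, j.2⟩
    · simpa using Y.notJ
  have key : ∀ k ∈ J, ∃ t ∈ A k, |g.toFun x k - t| ≤ d / 5 := fun k hk => by
    rw [hJ, Finset.mem_insert, Finset.mem_singleton] at hk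
    rcases hk with rfl | rfl
    · exact ⟨_, i.2, h0⟩
    · exact ⟨_, j.2, h1⟩
  rcases Y.one hJ c hc x hx h2 with ⟨k, hk, h3⟩ | ⟨k, hk, h3⟩
  · obtain ⟨t, ht, h4⟩ := key k hk
    have h5 := h.far k t ht _ h3
    rw [abs_sub_comm] at h5
    linarith
  · obtain ⟨t, ht, h4⟩ := key k hk
    obtain ⟨h5, h6⟩ := h.ins k t ht
    obtain ⟨h7, h8⟩ := abs_le.1 h4
    have := h.le
    have := Y.pos
    rcases h3 with h3 | h3 <;> linarith

theorem two (h : Adm Y A d) {c : Y.K.ι} (hc : c ∈ Y.fro) {i j : A 0 ⊕ A 1} (hij : i ≠ j) {x : E3}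
    (hx : x ∈ Y.K.cell c) (h1 : |lf g A d i x| ≤ 1) (h2 : |lf g A d j x| ≤ 1) :
    i.isLeft ≠ j.isLeft ∧
      ¬ (x ∈ Y.K.bd c ∨ Y.K.dim c ≤ 1 ∨ ¬ Y.K.cell c ⊆ St.pre g (frontier (Icc lo hi))) := by
  rw [abs_lf h.pos] at h1 h2
  have h3 : i.isLeft ≠ j.isLeft := fun e => by
    obtain ⟨h4, h5⟩ := sep h hij e
    rw [h4] at h1
    have h6 := abs_sub_le (lv A i) (g.toFun x (co A j)) (lv A j)
    rw [abs_sub_comm] at h1
    linarith [h.pos]
  refine ⟨h3, ?_⟩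
  rcases i with i | i <;> rcases j with j | j
  · exact absurd rfl h3
  · exact cross h hc hx i j h1 h2
  · exact cross h hc hx j i h2 h1
  · exact absurd rfl h3

theorem good (h : Adm Y A d) {c : Y.K.ι} (hc : c ∈ Y.fro) :
    Nt.Good (Y.K.cell c) (Y.K.bd c) (lf g A d) :=
  glin Sum.isLeft (Y.K.ball c) (lin hc A d) (both h hc) fun i j hij x hx h1 h2 => by
    obtain ⟨h3, h4⟩ := two h hc hij hx h1 h2
    rw [not_or, not_or] at h4
    exact ⟨h3, h4.1, by omega⟩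

theorem arc (h : Adm Y A d) {c : Y.K.ι} (hc : c ∈ Y.fro) (h2 : Y.K.dim c = 2) (i : A 0 ⊕ A 1)
    {x : E3} (hx : x ∈ Y.K.cell c) (h0 : lf g A d i x = 0) :
    IsPreconnected (Fl.lev (Y.K.cell c) (lf g A d i) 0) ∧
      (Fl.lev (Y.K.cell c) (lf g A d i) 0 ∩ Y.K.bd c).Nonempty := by
  obtain ⟨⟨y, hy, h3⟩, z, hz, h4⟩ := (both h hc i).resolve_left fun h3 => by
    have := h3 x hx
    rw [h0, abs_zero] at this
    linarith
  have hb : ConBall 2 (Y.K.cell c) (Y.K.bd c) := h2 ▸ Y.K.ball c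
  have h5 := slice (n := 1) hb (lin hc A d) i 0 ⟨y, hy, by linarith⟩
    ⟨z, hz, by linarith⟩
  obtain ⟨p, q, -, h6⟩ := h5.one_arc
  have h7 : p ∈ Fl.lev (Y.K.bd c) (lf g A d i) 0 := h6 ▸ mem_insert p {q}
  exact ⟨h5.isConnected.isPreconnected, p, h5.1 h7, h7.1⟩

theorem discs (h : Adm Y A d) {c : Y.K.ι} (hc : c ∈ Y.fro) (h3 : Y.K.dim c = 3)
    (i : A 0 ⊕ A 1) : Wf.Discs (Fl.lev (Y.K.cell c) (lf g A d i) 0) (Y.K.bd c) := by
  rcases both h hc i with h1 | ⟨⟨y, hy, h1⟩, z, hz, h2⟩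
  · refine ⟨∅, ?_, by simp, by simp⟩
    simp only [Finset.notMem_empty, iUnion_of_empty, iUnion_empty]
    refine eq_empty_of_forall_notMem fun x hx => ?_
    have := h1 x hx.1
    rw [hx.2, abs_zero] at this
    linarith
  have hb : ConBall 3 (Y.K.cell c) (Y.K.bd c) := by simpa only [h3] using Y.K.ball c
  have h5 := slice (n := 2) hb (lin hc A d) i 0 ⟨y, hy, by linarith⟩ ⟨z, hz, by linarith⟩
  refine ⟨{Fl.lev (Y.K.cell c) (lf g A d i) 0}, by simp, by simp, fun D hD => ?_⟩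
  rw [Finset.mem_singleton.1 hD, show _ ∩ _ = Fl.lev (Y.K.bd c) (lf g A d i) 0 from Set.ext
    fun x => ⟨fun hx => ⟨hx.2, hx.1.2⟩, fun hx => ⟨h5.1 hx, hx.1⟩⟩]
  exact h5

end Rw

open Rw in
theorem raw : RAW := by
  intro Ω Λ S g lo hi o J Bf Y A d L L₀ hL c₀ lam h hlam hlip hge
  have := Y.fin
  have hd := h.pos
  have e4 : 4 * (lam : ℝ) = d / 5 := by rw [hlam]; ring
  have hl : ∀ i, Wb.lvl (X := Y.base A L L₀ hL) Y.gC (lv A) i =
      {x ∈ St.pre g (Icc lo hi) | g.toFun x (co A i) = lv A i} := fun i => by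
    rw [← Y.gC_eq]
    rfl
  have hp : (⋃ i, Wb.lvl (X := Y.base A L L₀ hL) Y.gC (lv A) i) = pts g lo hi A := by
    ext x
    simp only [hl, mem_iUnion]
    constructor
    · rintro ⟨i | i, h1, h2⟩
      · exact ⟨h1, Or.inl (h2 ▸ lv_mem (.inl i))⟩
      · exact ⟨h1, Or.inr (h2 ▸ lv_mem (.inr i))⟩
    · rintro ⟨h1, h2 | h2⟩
      · exact ⟨.inl ⟨_, h2⟩, h1, rfl⟩
      · exact ⟨.inr ⟨_, h2⟩, h1, rfl⟩
  obtain ⟨w, hw, hc⟩ := natg0 Y.K Y.fro (lf g A d) Y.face fun c hc => good h hc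
  have hdom : Wf.dom (Y.base A L L₀ hL) Y.fro = ⋃ c ∈ Y.fro, Y.K.cell c :=
    union_eq_right.2 fun x hx => by
      obtain ⟨c, h1, h2⟩ := Y.sub x hx
      exact mem_biUnion (Y.froU c h2) h1
  have hk : ∀ i, (w i).Keeps (St.pre g (frontier (Icc lo hi))) := fun i x hx s hs hx' => by
    obtain ⟨c, h1, h2⟩ := Y.sub x hx'
    exact h2 ((hw i).2 c x hx s hs h1)
  refine ⟨hp, w, Y.lt, by rw [← NNReal.coe_pos, hlam]; positivity, ?_, fun i => ?_,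
    fun i j hij e => ?_, Y.face, Y.froU, fun i => hdom ▸ (hw i).1.on, fun i x hx => ?_, hk, hk,
    fun i c _ => (hw i).2 c, hc, fun i j hij c hc' h1 => ?_,
    fun i x hx => ⟨{x}, singleton_subset_iff.2 hx, isPreconnected_singleton, rfl, x, rfl, hx.2⟩,
    fun i j _ x hx =>
      ⟨{x}, singleton_subset_iff.2 hx, isPreconnected_singleton, rfl, x, rfl, hx.2⟩,
    fun i φ h1 h2 x hx => ?_, fun i c hc' => ?_,
    fun c _ _ => Y.cvx c, fun i c hc' h1 => ?_,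
    fun c h1 h2 => hp ▸ hge c h1 h2, fun i => hl i ▸ h.gen _ _ (lv_mem i), fun i j hij => ?_⟩
  · rw [Y.gC_eq]
    exact Set.ext fun x => ⟨fun hx => ⟨Y.ball.1 hx, hx.2⟩, fun hx => ⟨hx.1.1, hx.2⟩⟩
  · obtain ⟨h1, h2⟩ := h.ins _ _ (lv_mem i)
    have := h.le
    have := Y.pos
    rw [e4]
    exact ⟨lt_of_le_of_lt (add_le_add le_rfl (by linarith)) h1,
      by change lv A i + d / 5 < hi (co A i); linarith⟩
  · have h1 := (sep h hij e).2
    rw [hlam]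
    linarith
  · rw [hdom] at hx
    rw [Y.gC_eq, e4]
    exact ⟨((hw i).1.mem x hx).trans (abs_lf hd), (hw i).1.u_eq x hx⟩
  · exact disjoint_left.2 fun x hx hx' => (two h hc' hij hx' ((hw i).1.abs_le hx.1)
      ((hw j).1.abs_le hx.2)).2 (Or.inr (Or.inr h1))
  · rw [hl] at hx ⊢
    have h3 := (lf_zero hd).2 hx.1.2
    obtain ⟨h4, h5⟩ := arc h (Y.froU φ h2) h1 i hx.2 h3
    exact ⟨_, fun y hy => ⟨⟨Y.ball.1 (h2 hy.1), (lf_zero hd).1 hy.2⟩, hy.1⟩, h4, ⟨hx.2, h3⟩, h5⟩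
  · rw [Y.gC_eq]
    have h1 := (LipschitzWith.eval (α := fun _ : Fin 3 => ℝ) (co A i)).comp_lipschitzOnWith
      (hlip c hc')
    rw [one_mul] at h1
    exact h1.mono fun x hx => hx.1
  · rw [hl]
    refine (congrArg (Wf.Discs · _) ?_).mpr (discs h hc' h1 i)
    exact Set.ext fun x => ⟨fun hx => ⟨hx.2, (lf_zero hd).2 hx.1.2⟩, fun hx =>
      ⟨⟨Y.carrier ▸ Y.K.cell_subset_carrier c hx.1, (lf_zero hd).1 hx.2⟩, hx.1⟩⟩
  · rw [hl, hl]
    rcases i with i | i <;> rcases j with j | j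
    · exact absurd rfl hij
    · rw [← sep_and]
      exact h.gen₂ _ i.2 _ j.2
    · rw [inter_comm, ← sep_and]
      exact h.gen₂ _ j.2 _ i.2
    · exact absurd rfl hij

end P073.St3
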