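import Vale.Agent.P073Y.St3.Sk
import Vale.Agent.P073Y.St.Tric
import Vale.Agent.P073Y.St.Site
import Vale.Agent.P073Y.St.Dim
import Vale.Agent.P073Y.Bd.Amal
import Vale.Agent.P073Z.DISC2.Path

/-!
# The amalgamated complex and the complex for the engine
-/

open Set Metric Topology Filter

namespace P073.St3

open P073.Top
open P073.St (Same Tri Side)
open P073.St.Tc
open P073.St.SiteA (same_ocell pre_mono fr_sub)
open P073.B (Ali)

namespace SiteB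

variable {Ω Λ : Set E3} {S : Src Ω} {g : ConHomeo Ω Λ} {lo hi : E3} {o : ℝ} {P : RCx E3}
  {τ : Tri S g P} {φ φ' : S.Q.ι}

theorem good (h : Whole S g.toFun lo hi φ) : Good S g.toFun lo hi φ := h.2 φ Subset.rfl h.1

theorem sub_pre (h : Whole S g.toFun lo hi φ) : S.Q.cell φ ⊆ St.pre g (Icc lo hi) := fun _ hx =>
  ⟨S.carrier ▸ S.Q.cell_subset_carrier φ hx,
    (good h).elim (fun h => interior_subset (h hx)) fun h => h.1 hx⟩

theorem up (h : Whole S g.toFun lo hi φ) (hs : S.Q.cell φ ⊆ S.Q.cell φ')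
    (hm : Meet S g.toFun lo hi φ') : Whole S g.toFun lo hi φ' :=
  ⟨hm, fun c hc => h.2 c (hs.trans hc)⟩

theorem ali (h : Whole S g.toFun lo hi φ) {x : E3} (hx : x ∈ S.Q.cell φ)
    (hf : g.toFun x ∈ frontier (Icc lo hi)) : Ali S g.toFun φ :=
  (good h).elim (fun h => (hf.2 (h hx)).elim) fun h => h.2

theorem deep_int (ho : 0 < o) {y : E3} (h : ∀ i, lo i + o ≤ y i ∧ y i ≤ hi i - o) :
    y ∈ interior (Icc lo hi) := by
  rw [← pi_univ_Icc, interior_pi_set finite_univ, mem_univ_pi]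
  intro i
  rw [interior_Icc]
  exact ⟨by linarith [(h i).1], by linarith [(h i).2]⟩

theorem whole_of_deep (ho : 0 < o) (hO : S.Osc g.toFun (Icc lo hi) o)
    (h : Deep g.toFun (S.Q.cell φ) lo hi (2 * o)) : Whole S g.toFun lo hi φ := by
  obtain ⟨y, hy⟩ := S.Q.ocell_nonempty φ
  have h0 : g.toFun y ∈ Icc lo hi :=
    ⟨fun i => by linarith [(h y hy.1 i).1], fun i => by linarith [(h y hy.1 i).2]⟩
  refine ⟨⟨y, hy, h0⟩, fun c hc _ => Or.inl fun x hx => deep_int ho fun i => ?_⟩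
  have h2 := abs_le.1 ((dist_le_pi_dist (g.toFun x) (g.toFun y) i).trans
    (hO c ⟨_, ⟨y, hc hy.1, rfl⟩, h0⟩ x hx y (hc hy.1)))
  constructor <;> linarith [(h y hy.1 i).1, (h y hy.1 i).2, h2.1, h2.2]

theorem meet_of_int {x : E3} (hx : x ∈ S.Q.cell φ) (h : g.toFun x ∈ interior (Icc lo hi)) :
    Meet S g.toFun lo hi φ := by
  have h1 : S.Q.cell φ ⊆ Ω := (S.Q.cell_subset_carrier φ).trans S.carrier.le
  obtain ⟨_, h2, y, h3, rfl⟩ := mem_closure_iff_nhds.1 (((g.cont x (h1 hx)).mono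
    ((S.Q.ocell_subset φ).trans h1)).mem_closure_image ((S.Q.ball φ).subset_closure_int hx)) _
    (mem_interior_iff_mem_nhds.1 h)
  exact ⟨y, h3, h2⟩

theorem lin_of {C B : Set E3} {n : ℕ} (hb : ConBall n C B) (h1 : Convex ℝ C)
    (h2 : B = intrinsicFrontier ℝ C) (h3 : ∃ A : E3 →ᵃ[ℝ] E3, EqOn g.toFun A C) :
    Nt.Lin C B fun (k : Fin 3) x => g.toFun x k :=
  let ⟨A, hA⟩ := h3
  ⟨_, ConHomeo.refl hb.conicalSet, fun k => (AffineMap.proj k).comp A, h1,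
    (image_id' _).trans h2, fun k _ hx => congrFun (hA hx) k⟩

variable (A : Am S g lo hi τ)

/-- the cells of the subdivision which are kept -/
def Kept (j : A.K.ι) : Prop := (∃ i, Same A.K τ.T j i) ∧
  ∀ φ, Whole S g.toFun lo hi φ → Disjoint (A.K.cell j) (S.Q.ocell φ)

/-- the soft cells -/
def fro : Set A.K.ι := {j | A.K.cell j ⊆ St.pre g (frontier (Icc lo hi)) ∨ Kept A j}

/-- the coordinates which are constant on a cell -/
def val : Set ℝ := ⋃ (j : A.K.ι) (k : Fin 3), {v | ∀ x ∈ A.K.cell j, g.toFun x k = v}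

theorem val_fin : (val A).Finite := by
  have := A.fin
  refine finite_iUnion fun j => finite_iUnion fun k => Subsingleton.finite fun v h v' h' => ?_
  obtain ⟨x, hx⟩ := A.K.cell_nonempty j
  exact (h x hx).symm.trans (h' x hx)

theorem cell_pre (j : A.K.ι) : A.K.cell j ⊆ St.pre g (Icc lo hi) :=
  A.carrier ▸ A.K.cell_subset_carrier j

variable {A} {j c : A.K.ι}

theorem Kept.not (h : Kept A c) (hφ : Whole S g.toFun lo hi φ) (e : Same A.K S.Q j φ) :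
    ¬ A.K.cell j ⊆ A.K.cell c := fun hj =>
  let ⟨_, hx⟩ := A.K.ocell_nonempty j
  disjoint_left.1 (h.2 φ hφ) (hj hx.1) (same_ocell e ▸ hx)

theorem Kept.sub (h : Kept A j) {X : Set E3} (hX : τ.T.Sub X) {x : E3} (hx : x ∈ A.K.ocell j)
    (hxX : x ∈ X) : A.K.cell j ⊆ X := by
  obtain ⟨i, hi⟩ := h.1
  rw [hi.1]
  exact hX.cell_subset (same_ocell hi ▸ hx) hxX

theorem inq (hP : P.carrier = Icc lo hi) (j : A.K.ι) (φ : S.Q.ι)
    (h : (A.K.ocell j ∩ S.Q.cell φ).Nonempty) : A.K.cell j ⊆ S.Q.cell φ := by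
  obtain ⟨x, hx, hφ⟩ := h
  rcases A.cases j with ⟨φ', -, h2⟩ | h1
  · exact h2.1 ▸ S.Q.cell_subset_of_mem (same_ocell h2 ▸ hx) hφ
  · exact (Kept.sub h1 (τ.subQ φ) hx ⟨hφ, hP.symm ▸ cell_pre A j hx.1⟩).trans inter_subset_left

theorem sub_fr (hA : ALI) (hF : P.Sub (frontier (Icc lo hi))) (A : Am S g lo hi τ) :
    A.K.Sub (St.pre g (frontier (Icc lo hi))) := by
  intro x hx
  obtain ⟨j, hj⟩ := A.K.exists_ocell (A.carrier.symm ▸ pre_mono fr_sub hx)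
  refine ⟨j, hj.1, ?_⟩
  rcases A.cases j with ⟨φ, h1, h2⟩ | h1
  · have h3 := (hA S g φ (ali h1 (h2.1 ▸ hj.1) hx.2)).2.1
    obtain ⟨-, k, hk⟩ := (Cut.Box.frontier_box lo hi).subset hx.2
    rw [h2.1]
    intro y hy
    refine ⟨(sub_pre h1 hy).1, (Cut.Box.frontier_box lo hi).superset ⟨(sub_pre h1 hy).2, k, ?_⟩⟩
    exact hk.imp
      (fun e => h3 k _ x (same_ocell h2 ▸ hj) e (Or.inr fun z hz => (sub_pre h1 hz).2.1 k) y hy)
      fun e => h3 k _ x (same_ocell h2 ▸ hj) e (Or.inl fun z hz => (sub_pre h1 hz).2.2 k) y hy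
  · obtain ⟨d, h2, h3⟩ := hF _ hx.2
    exact (Kept.sub h1 (τ.subP d) hj ⟨hx.1, h2⟩).trans (pre_mono h3)

theorem lin (h : c ∈ fro A) :
    Nt.Lin (A.K.cell c) (A.K.bd c) fun (k : Fin 3) x => g.toFun x k := by
  rcases A.cases c with ⟨φ, h1, h2⟩ | ⟨⟨i, h1⟩, -⟩
  · obtain ⟨x, hx⟩ := A.K.cell_nonempty c
    have h3 := ali h1 (h2.1 ▸ hx) (h.resolve_right (fun h => h.not h1 h2 Subset.rfl) hx).2
    rw [h2.1, h2.2.1]
    exact lin_of (S.Q.ball φ) (S.cvx φ).1 (S.cvx φ).2.1 h3.1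
  · rw [h1.1, h1.2.1]
    exact lin_of (τ.T.ball i) (τ.cvx i).1 (τ.cvx i).2.1 (τ.aff i)

end SiteB

open SiteB

theorem amk : AMK := by
  intro Ω Λ S g lo hi P τ hP
  have := τ.fin
  have hcar : τ.T.carrier = St.pre g (Icc lo hi) := by rw [τ.carrier, hP]
  have hQ : Fine τ.T S.Q :=
    ⟨by rw [τ.carrier, S.carrier]; exact pre_subset g _, fun c => by
      rw [τ.carrier]; exact τ.subQ c⟩
  have hW : ∀ φ, Whole S g.toFun lo hi φ → S.Q.cell φ ⊆ τ.T.carrier := fun φ hφ =>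
    hcar ▸ sub_pre hφ
  have hfinW : Finite {φ // Whole S g.toFun lo hi φ} :=
    (S.Q.finite_subset (isCompact_carrier τ.T) hQ.car).subset fun φ hφ => hW φ hφ
  have hup : ∀ (φ : {φ // Whole S g.toFun lo hi φ}) (i : τ.T.ι) (x : E3), x ∈ τ.T.cell i →
      x ∈ S.Q.ocell φ.1 → ∃ φ' : {φ // Whole S g.toFun lo hi φ},
        τ.T.ocell i ⊆ S.Q.ocell φ'.1 := fun φ i x hx hφ =>
    let ⟨φ', h1, h2⟩ := hQ.up hx hφ
    let ⟨y, hy⟩ := τ.T.ocell_nonempty i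
    ⟨⟨φ', up φ.2 h2 ⟨y, h1 hy, (hcar.subset (τ.T.cell_subset_carrier i hy.1)).2⟩⟩, h1⟩
  obtain ⟨K, e, f, hfin, hK, he, hf, hcases⟩ := Bd.amal τ.T (μ := {φ // Whole S g.toFun lo hi φ})
    (fun φ => S.Q.cell φ.1) (fun φ => S.Q.bd φ.1) (fun φ => S.Q.dim φ.1)
    (fun φ => ⟨S.Q.ball φ.1, hQ.sub_of (S.Q.sub_cell _) (hW _ φ.2),
      hQ.sub_of (S.Q.sub_bd _) ((S.Q.bd_subset _).trans (hW _ φ.2))⟩)
    (fun φ φ' hne => disjoint_or_face S.Q fun h => hne (Subtype.ext h))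
    (fun φ i hi => hQ.dim_lt St.dim hi) fun φ i ⟨x, hx, hm⟩ => Or.inr (hup φ i x hx hm)
  refine ⟨⟨K, hfin, hK.trans hcar, fun φ hφ => ⟨e ⟨φ, hφ⟩, he _⟩, fun j => ?_⟩⟩
  rcases hcases j with ⟨φ, rfl⟩ | ⟨i, rfl⟩
  · exact Or.inl ⟨φ.1, φ.2, he _⟩
  · obtain ⟨y, hy⟩ := τ.T.ocell_nonempty i.1
    refine Or.inr ⟨⟨i.1, hf i⟩, fun φ hφ => ?_⟩
    rw [(hf i).1, Set.disjoint_left]
    intro x hx hm
    obtain ⟨φ', h⟩ := hup ⟨φ, hφ⟩ i.1 x hx hm
    exact Set.disjoint_left.1 (i.2 φ') hy (h hy)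

theorem site_of (hD : Dim3) (hA : ALI) (hK : KEY) : SITE := by
  intro Ω Λ S g lo hi o J Bf P τ A hP hF hc hΩ ho h2 hJ hO hR
  have := A.fin
  have hlt : ∀ k, lo k < hi k := fun k => by linarith [h2 k]
  have hb : ConBall 3 (St.pre g (Icc lo hi)) (St.pre g (frontier (Icc lo hi))) :=
    Cut.Box.ball_of (τ.gC.cast (by rw [hP]) hP)
      ((Cut.Box.frontier_box lo hi).symm ▸ Cut.Box.conBall_Icc hlt) (pre_mono fr_sub)
      fun x hx => by
        show _ ↔ τ.gC.toFun x ∈ _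
        rw [τ.gC_eq]
        exact ⟨fun h => h.2, fun h => ⟨hx.1, h⟩⟩
  obtain ⟨b1, b2, b3, b4⟩ := St.dim.ball A.K (A.carrier.symm ▸ hb)
  obtain ⟨M₁, M₂, c1, c2⟩ := hD.chart S A.K hc
  have nf : ∀ j φ, Whole S g.toFun lo hi φ → Same A.K S.Q j φ → j ∈ fro A →
      ∀ x ∈ S.Q.cell φ, g.toFun x ∉ interior (Icc lo hi) := fun j φ h1 h2 h3 x hx =>
    (h3.resolve_right (fun h => h.not h1 h2 Subset.rfl) (h2.1 ▸ hx)).2.2
  refine ⟨⟨hlt, ho, hJ, τ.gC.cast (by rw [hP]) hP, τ.gC_eq, A.K, A.fin, A.carrier, hb, b1,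
    sub_fr hA hF A, b3, b2, b4, (hD.top S hΩ).1, M₁, M₂, c1, c2, fun j x hx y hy => ?_, fun j => ?_,
    inq hP, fro A, ?_, fun c h => Or.inl h, fun c h => lin h, val A, val_fin A, fun x hx k => ?_,
    ?_, fun j h => ?_, fun φ => ?_, fun φ h => ?_⟩⟩
  · obtain ⟨z, hz⟩ := A.K.ocell_nonempty j
    obtain ⟨φ, hφ⟩ := S.Q.mem_carrier.1 (S.carrier.symm ▸ (cell_pre A j hz.1).1)
    have h := inq hP j φ ⟨z, hz, hφ⟩
    exact hO φ ⟨_, ⟨x, h hx, rfl⟩, (cell_pre A j hx).2⟩ x (h hx) y (h hy)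
  · rcases A.cases j with ⟨φ, -, h⟩ | ⟨⟨i, h⟩, -⟩
    · exact h.1 ▸ (S.cvx φ).1
    · exact h.1 ▸ (τ.cvx i).1
  · rintro c (h | h) j hj
    · exact Or.inl (hj.trans h)
    · exact Or.inr ((A.cases j).resolve_left fun ⟨φ, h1, h2⟩ => h.not h1 h2 hj)
  · obtain ⟨i, h1, h2⟩ := A.K.mem_skel.1 hx
    obtain ⟨a, ha⟩ := A.K.exists_vertex (Nat.le_zero.1 h1)
    refine mem_iUnion₂.2 ⟨i, k, fun y hy => ?_⟩
    rw [ha] at hy h2
    rw [hy, h2]
  · rintro rfl c hc x hx h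
    have h0 := cell_pre A c hx
    obtain ⟨φ, hφ⟩ := S.Q.exists_ocell (S.carrier.symm ▸ h0.1)
    by_cases hW : Whole S g.toFun lo hi φ
    · obtain ⟨j, hj⟩ := A.whole φ hW
      have h3 : x ∈ A.K.ocell j := same_ocell hj ▸ hφ
      have h4 := A.K.cell_subset_of_mem h3 hx
      have h5 := hc.resolve_right fun h => h.not hW hj h4
      have h6 : A.K.dim c ≤ 2 := Nat.lt_succ_iff.1 (lt_of_le_of_ne (b2 c) fun e => b3 c e h5)
      have h7 : S.Q.dim φ ≤ 1 := by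
        rw [← hj.2.2]
        rcases h with h | h | h
        · have := A.K.dim_lt (A.K.subset_bd_of_mem h3 h)
          omega
        · exact (A.K.dim_le h4).trans h
        · exact (h h5).elim
      obtain ⟨k, h8, h9⟩ := (hA S g φ (ali hW hφ.1 (h5 hx).2)).2.2 h7
      exact Or.inl ⟨k, (by decide : ∀ k : Fin 3, k ≠ 2 → k ∈ ({0, 1} : Finset (Fin 3))) k h8,
        Or.inl (mem_iUnion₂.2 ⟨j, k, fun y hy => h9 y (hj.1 ▸ hy) x hφ.1⟩)⟩
    · simp only [Whole, not_and, not_forall] at hW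
      obtain ⟨d, h3, h4, h5⟩ := hW ⟨x, hφ, h0.2⟩
      exact (hK S g lo hi o Bf hΩ ho h2 hO hR d h4 h5 x (h3 hφ.1) h0.2).imp_left
        fun ⟨k, h6, h7⟩ => ⟨k, h6, Or.inr h7⟩
  · exact (A.cases j).elim (fun ⟨φ, _, h1⟩ => ⟨φ, h1⟩) fun h1 => (h (Or.inr h1)).elim
  · by_cases hW : Whole S g.toFun lo hi φ
    · obtain ⟨j, hj⟩ := A.whole φ hW
      by_cases h : j ∈ fro A
      · exact Or.inr fun _ x _ h3 h4 => (nf j φ hW hj h x h3 h4).elim
      · exact Or.inl ⟨j, h, hj⟩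
    · refine Or.inr fun j x h1 h3 h4 => Or.inr ((A.cases j).resolve_left fun ⟨φ', h5, h6⟩ => ?_)
      exact hW (up h5 (S.Q.cell_subset_of_mem (same_ocell h6 ▸ h1) h3) (meet_of_int h3 h4))
  · have hW := whole_of_deep ho hO h
    obtain ⟨x, hx⟩ := S.Q.cell_nonempty φ
    exact (A.whole φ hW).imp fun j hj => ⟨fun h1 => nf j φ hW hj h1 x hx (deep_int ho fun i =>
      ⟨by linarith [(h x hx i).1], by linarith [(h x hx i).2]⟩), hj⟩

end P073.St3
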