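import Vale.Agent.P073Y.St3.Sk
import Vale.Agent.P073Y.St.Sqr
import Vale.Agent.P073Y.St.Dim

/-!
# The affine chart of a marked face
-/

open Set Metric Topology Filter MeasureTheory
open scoped NNReal ENNReal

namespace P073.St3

open P073.Top
open P073.St (Same)
open P073.St.Sqr

theorem sqr : SQR := by
  intro Ω Λ S g lo hi o J Bf Y θ a φ ψ hm hd
  obtain ⟨j, -, hs⟩ := Y.deep φ hd
  have hc : ψ '' Fi.Q = Y.K.cell j := (hs.1.trans hm.cell).symm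
  have hb : S.Q.bd φ = ψ '' Fi.Sq := by rw [(S.cvx φ).2.1, hm.cell, frontier_eq hm.inj]
  obtain ⟨χ, hχ⟩ : ∃ χ : ConHomeo (Y.K.cell j) Fi.Q, χ.invFun = ψ :=
    ⟨(ConHomeo.ofCompact (isCompact_closedBall 0 1) ψ
      ψ.continuous_of_finiteDimensional.continuousOn hm.inj.injOn
      (conicalOn_of_affine ψ (Convex.conicalSet (convex_closedBall 0 1))) hc).symm,
      ConHomeo.ofCompact_toFun ..⟩
  have h1 : ∀ v ∈ Fi.Q, χ.toFun (ψ v) = v := fun v hv => hχ ▸ χ.right_inv hv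
  have h2 : ∀ X ⊆ Fi.Q, χ.toFun '' (ψ '' X) = X := fun X hX => by
    rw [image_image]
    exact (image_congr fun v hv => h1 v (hX hv)).trans (image_id' X)
  have h3 : ∀ φ', S.Q.cell φ' ⊆ S.Q.cell φ → ∃ j', j' ∉ Y.fro ∧ Same Y.K S.Q j' φ' :=
    fun φ' h => Y.deep φ' fun x hx => hd x (h hx)
  have h4 : ∀ e, Y.K.cell e ⊆ Y.K.cell j → e ∉ Y.fro ∧ ∃ φ', Same Y.K S.Q e φ' := fun e he => by
    obtain ⟨x, hx⟩ := Y.K.ocell_nonempty e
    obtain ⟨φ', a1, a2⟩ := S.Q.exists_face (hs.1 ▸ he hx.1)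
    obtain ⟨j', a3, a4⟩ := h3 φ' a2
    obtain rfl : e = j' := Y.K.ocell_unique hx ⟨a4.1 ▸ a1.1, a4.2.1 ▸ a1.2⟩
    exact ⟨a3, φ', a4⟩
  have h5 := Y.chart j (hs.2.2.trans hm.dim).ge
  rw [hs.2.2, hm.dim, ← hc, hs.2.1, hb] at h5
  refine ⟨j, χ, hs, fun v _ => by rw [hχ], fun e he => (h4 e he).1, ?_, ?_, ?_, ?_, ?_⟩
  · rw [hs.2.1, hb, h2 _ sphere_subset_closedBall]
  · refine LipschitzOnWith.of_dist_le_mul fun x hx y hy => ?_
    obtain ⟨v, hv, rfl⟩ := hc.ge hx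
    obtain ⟨w, hw, rfl⟩ := hc.ge hy
    rw [h1 v hv, h1 w hw, St.Sqr.dist_eq, dist_eq_norm]
    exact (bounds h5 _).1
  · refine LipschitzOnWith.of_dist_le_mul fun v _ w _ => ?_
    rw [hχ, St.Sqr.dist_eq, dist_eq_norm]
    exact (bounds h5 _).2
  · intro x hx a0 a1
    obtain ⟨v, hv, rfl⟩ := hc.ge hx
    rw [h1 v hv, abs_eq zero_le_one] at a0 a1
    obtain ⟨⟨e, e1, e2⟩, -⟩ := hm.side 0 (v 1) a1
    obtain ⟨j', -, a2⟩ := h3 e (by
      rw [e2, hm.cell, ← image_segment]; exact image_mono (side_sub a1))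
    refine Y.K.bd_subset_skel (i := j') (by rw [a2.2.2, e1]) ?_
    rw [a2.2.1, ((St.dim.seg S.Q e e1 (S.cvx e).1).2 _ _ e2).2.1]
    have a3 : v = cor 0 (v 0) (v 1) := by ext k; fin_cases k <;> simp [cor]
    rcases a0 with a0 | a0
    · exact Or.inr (by rw [← a0, ← a3]; rfl)
    · exact Or.inl (by rw [← a0, ← a3])
  · intro e e1 he
    obtain ⟨-, e', a1⟩ := h4 e he
    have a2 : S.Q.dim e' = 1 := a1.2.2 ▸ e1
    obtain ⟨x, hx⟩ := S.Q.ocell_nonempty e'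
    have a3 : x ∈ S.Q.bd φ := S.Q.subset_bd_of_dim_lt (by rw [← a1.1, ← hs.1]; exact he)
      (by rw [a2, hm.dim]; exact one_lt_two) hx.1
    obtain ⟨v, hv, rfl⟩ := hb.le a3
    obtain ⟨i, t, ht, a4⟩ := exists_side hv
    obtain ⟨⟨e'', b1, b2⟩, b3⟩ := hm.side i t ht
    obtain rfl : e' = e'' := S.Q.eq_of_subset_of_dim_le (S.Q.cell_subset_of_mem hx (by
      rw [b2, ← image_segment]; exact mem_image_of_mem _ a4)) (by rw [a2, b1])
    refine ⟨_, _, e', a1, a1.1.trans b2, b3, LipschitzOnWith.of_dist_le_mul fun v hv w hw => ?_⟩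
    rw [a1.1, b2, ← image_segment, h2 _ (side_sub ht)] at hv hw
    rw [hχ]
    simpa using side_dist ψ hv hw

end P073.St3
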