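import Vale.Agent.P073Y.B.Defs2
import Vale.Agent.P073Y.St.All
import Vale.Agent.P073Y.St3.Eng
import Vale.Agent.P073Y.St3.Est
import Vale.Agent.P073Y.St3.Fin
import Vale.Agent.P073Y.St3.Key
import Vale.Agent.P073Y.St3.Main
import Vale.Agent.P073Y.St3.Perm
import Vale.Agent.P073Y.St3.Pick
import Vale.Agent.P073Y.St3.Raw
import Vale.Agent.P073Y.St3.Site
import Vale.Agent.P073Y.St3.Sqr
import Vale.Agent.P073Y.Wh.Cellh
import Vale.Agent.P073Y.Wh.Run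
import Vale.Agent.P073Y.Wh.W2h

/-!
# Normalisation in one box with bounds on all cells: the unconditional statement
-/

namespace P073.St3

theorem eng {p : ℝ} (hp : 1 ≤ p) : ENG p := by
  obtain ⟨c₀, h⟩ := Wh.w2h_of Wh.cellh
  exact eng_of St.api St.dim raw sqr (Wh.runh_of (h c₀ le_rfl))
    (fun h1 h2 h3 h4 h5 h6 _ _ _ _ => St.sharp_of St.api h1 h2 h3 h4 h5 h6) hp

theorem stg {p : ℝ} (hp : 1 ≤ p) : STG p fun J => J.card ≤ 2 :=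
  perm p (stage0_of St.lay St.tric amk (site_of dim3 ali key)
    (st1_of pick St.stpT (eng hp) (est_of dim3 sqr)) St.hat finb (finc hp))

theorem stage4 {p : ℝ} (hp : 1 ≤ p) : B.STAGE4 p := by
  obtain ⟨c, hc, H⟩ := stg hp
  refine ⟨c, hc, fun θ h0 h1 => ?_⟩
  obtain ⟨C, CM, hC, H⟩ := H θ h0 h1
  refine ⟨C, CM, hC, fun ϑ h2 h3 => ?_⟩
  obtain ⟨K, hK, H⟩ := H ϑ h2 h3
  refine ⟨K, hK, ?_⟩
  intro Ω Λ S g lo hi μ o J Bf η 𝓢 ψ a a1 a2 a3 a4 a5 a6 a7 a8 a9 a10 a11 a12 a13 a14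
  obtain ⟨h, Ψ, c1, c2, c3, c4, c5⟩ :=
    H S g lo hi μ o J Bf η 𝓢 ψ a a1 a2 a3 a4 a5 a6 a7 a8 a9 a10 a11 a12 a13 a14
  exact ⟨h, Ψ, c1, c2, c3, c4.wire, c4.keep, c4.gain, fun hJ => (c5 hJ).shE,
    fun hJ => (c5 hJ).shF⟩

end P073.St3
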