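import Vale.Agent.P073Y.St.Sk
import Vale.Agent.P073Y.B.Defs
import Vale.Agent.P073Y.Wh.Sk

/-!
# Normalisation in one box with bounds on all cells: definitions and statements of the blocks
-/

open Set Metric Topology Filter MeasureTheory
open scoped NNReal ENNReal

namespace P073.St3

open P073.Bd (Band cl Chart PwLip Gen1)
open P073.Top
open P073.St (Same pre Tri Side Levs stp Drf lv pts cmp Prof Pert)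
open P073.B (Ali Thin One)

variable {Ω Λ : Set E3}

/-! ### the goal -/

/-- the faces of a cell have charts with the constants of the cell -/
def Fc (S : Src Ω) : Prop := ∀ c l, S.Q.cell l ⊆ S.Q.cell c → 2 ≤ S.Q.dim l →
  Chart (S.Q.dim l) (S.Q.cell l) (S.Q.bd l) (S.M c / S.r c) (S.M c * S.r c)

/-- the hypothesis on the rim -/
def Rl (S : Src Ω) (g : E3 → E3) (lo hi : E3) (J : Finset (Fin 3)) (Bf : Fin 3 → Set ℝ) : Prop :=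
  B.Real S g lo hi J (fun _ => False) Bf

/-- the Lipschitz bounds -/
structure Res (C : ℝ≥0) (CM : ℝ≥0 → ℝ≥0) (S : Src Ω) (g h : E3 → E3) (lo hi : E3) (o : ℝ)
    (η : ℝ≥0∞) : Prop where
  wire : ∀ e, S.Q.dim e = 1 → lipc h (S.Q.cell e) ≤ C * lipc g (S.Q.cell e) + η
  keep : ∀ φ, 2 ≤ S.Q.dim φ →
    lipc h (S.Q.cell φ) ≤ CM (S.M φ) * (lipc g (S.Q.cell φ) + S.A g φ) + η
  gain : ∀ φ, 2 ≤ S.Q.dim φ → Deep g (S.Q.cell φ) lo hi (2 * o) →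
    lipc h (S.Q.cell φ) ≤ CM (S.M φ) * S.A g φ + η

/-- the sharp clauses -/
structure Shc (p c θ ϑ : ℝ) (S : Src Ω) (g h : E3 → E3) (lo hi : E3) (o : ℝ) (η : ℝ≥0∞)
    (𝓢 : Set S.Q.ι) (ψ : S.Q.ι → (E2 →ᵃ[ℝ] E3)) (a : S.Q.ι → ℝ) : Prop where
  shE : ∀ e x y, S.Q.dim e = 1 → S.Q.cell e = segment ℝ x y →
    Deep g (S.Q.cell e) lo hi (2 * o) → SharpE g h x y θ η ∧ Rise g h x y ϑ η
  shF : ∀ φ ∈ 𝓢, Deep g (S.Q.cell φ) lo hi (2 * o) → SharpF p h (ψ φ) (a φ) θ c η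

/-- the normalisation for the sets of directions which satisfy `H` -/
def STG (p : ℝ) (H : Finset (Fin 3) → Prop) : Prop := ∃ c : ℝ, 1 ≤ c ∧ ∀ θ : ℝ, 0 < θ →
  θ ≤ 1 / 1000 → ∃ (C : ℝ≥0) (CM : ℝ≥0 → ℝ≥0), 1 ≤ C ∧ ∀ ϑ : ℝ, 0 < ϑ → ϑ ≤ θ →
  ∃ K : ℝ≥0, 1 ≤ K ∧
  ∀ {Ω Λ : Set E3} (S : Src Ω) (g : ConHomeo Ω Λ) (lo hi : E3) (μ o : ℝ) (J : Finset (Fin 3))
    (Bf : Fin 3 → Set ℝ) (η : ℝ≥0∞) (𝓢 : Set S.Q.ι) (ψ : S.Q.ι → (E2 →ᵃ[ℝ] E3))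
    (a : S.Q.ι → ℝ),
  Fc S → IsOpen Ω → IsOpen Λ → H J → 0 < o → K * o ≤ μ → (∀ i, lo i + μ ≤ hi i) →
  (∀ i, i ∉ J → hi i - lo i ≤ 16 * μ) → mbox lo hi μ ⊆ Λ → S.Osc g.toFun (mbox lo hi μ) o →
  (∀ k, Thin (Bf k) o ϑ) → Rl S g.toFun lo hi J Bf →
  0 < η → (∀ φ ∈ 𝓢, Marked S g.toFun θ φ (ψ φ) (a φ)) →
  One K C (fun g h lo hi o J => Res C CM S g.toFun h.toFun lo hi o η ∧
    (J = {0, 1} → Shc p c θ ϑ S g.toFun h.toFun lo hi o η 𝓢 ψ a)) g lo hi μ o J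

/-- exchange of coordinates -/
def PERM : Prop := ∀ p : ℝ, STG p (fun J => (2 : Fin 3) ∉ J) → STG p fun J => J.card ≤ 2

/-! ### dimensions -/

/-- cells of dimension three -/
structure Dim3 : Prop where
  top : ∀ {Ω : Set E3} (S : Src Ω), IsOpen Ω →
    (∀ c, S.Q.dim c ≤ 3) ∧ ∀ φ, ∃ c, S.Q.dim c = 3 ∧ S.Q.cell φ ⊆ S.Q.cell c
  face : ∀ (K : RCx E3) (c : K.ι), K.dim c = 3 → ∀ x ∈ K.bd c,
    ∃ f, K.dim f = 2 ∧ K.cell f ⊆ K.bd c ∧ x ∈ K.cell f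
  chart : ∀ {Ω : Set E3} (S : Src Ω) (K : RCx E3), Fc S → ∃ M₁ M₂ : K.ι → ℝ≥0,
    (∀ c, 2 ≤ K.dim c → Chart (K.dim c) (K.cell c) (K.bd c) (M₁ c) (M₂ c)) ∧
    ∀ j φ c, Same K S.Q j φ → 2 ≤ S.Q.dim φ → S.Q.cell φ ⊆ S.Q.cell c →
      M₁ j * M₂ j ≤ S.M c ^ 2

/-! ### the complex in the box -/

/-- the cell is mapped into the box, it is aligned if it touches the boundary -/
def Good (S : Src Ω) (g : E3 → E3) (lo hi : E3) (c : S.Q.ι) : Prop :=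
  MapsTo g (S.Q.cell c) (interior (Icc lo hi)) ∨ (MapsTo g (S.Q.cell c) (Icc lo hi) ∧ Ali S g c)

/-- the open cell meets the preimage of the box -/
def Meet (S : Src Ω) (g : E3 → E3) (lo hi : E3) (c : S.Q.ι) : Prop :=
  ∃ x ∈ S.Q.ocell c, g x ∈ Icc lo hi

/-- all cofaces in the box are good -/
def Whole (S : Src Ω) (g : E3 → E3) (lo hi : E3) (φ : S.Q.ι) : Prop :=
  Meet S g lo hi φ ∧ ∀ c, S.Q.cell φ ⊆ S.Q.cell c → Meet S g lo hi c → Good S g lo hi c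

/-- at `y` the bands of at most one family are present -/
def Sole (lo hi : E3) (o : ℝ) (J : Finset (Fin 3)) (Z : Fin 3 → Set ℝ) (y : E3) : Prop :=
  (∃ k ∈ J, y k ∈ Z k) ∨ Side lo hi J (2 * o) y

/-- cells which are not good see one family only -/
def KEY : Prop := ∀ {Ω Λ : Set E3} (S : Src Ω) (g : ConHomeo Ω Λ) (lo hi : E3) (o : ℝ)
  (Bf : Fin 3 → Set ℝ), IsOpen Ω → 0 < o → (∀ i, lo i + 2 * o ≤ hi i) →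
  S.Osc g.toFun (Icc lo hi) o → Rl S g.toFun lo hi {0, 1} Bf → ∀ c, Meet S g.toFun lo hi c →
  ¬ Good S g.toFun lo hi c → ∀ x ∈ S.Q.cell c, g.toFun x ∈ Icc lo hi →
  Sole lo hi o {0, 1} Bf (g.toFun x)

/-- aligned cells -/
def ALI : Prop := ∀ {Ω Λ : Set E3} (S : Src Ω) (g : ConHomeo Ω Λ) (c : S.Q.ι), Ali S g.toFun c →
  (∀ φ, S.Q.cell φ ⊆ S.Q.cell c → Ali S g.toFun φ) ∧
  (∀ (k : Fin 3) (v : ℝ), ∀ x ∈ S.Q.ocell c, g.toFun x k = v →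
    ((∀ y ∈ S.Q.cell c, g.toFun y k ≤ v) ∨ ∀ y ∈ S.Q.cell c, v ≤ g.toFun y k) →
    ∀ y ∈ S.Q.cell c, g.toFun y k = v) ∧
  (S.Q.dim c ≤ 1 → ∃ k : Fin 3, k ≠ 2 ∧ ∀ x ∈ S.Q.cell c, ∀ y ∈ S.Q.cell c,
    g.toFun x k = g.toFun y k)

/-- the amalgamated complex -/
structure Am (S : Src Ω) (g : ConHomeo Ω Λ) (lo hi : E3) {P : RCx E3} (τ : Tri S g P) where
  /-- the complex -/
  K : RCx E3
  fin : Finite K.ι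
  carrier : K.carrier = pre g (Icc lo hi)
  whole : ∀ φ, Whole S g.toFun lo hi φ → ∃ j, Same K S.Q j φ
  cases : ∀ j, (∃ φ, Whole S g.toFun lo hi φ ∧ Same K S.Q j φ) ∨
    ((∃ i, Same K τ.T j i) ∧
      ∀ φ, Whole S g.toFun lo hi φ → Disjoint (K.cell j) (S.Q.ocell φ))

def AMK : Prop := ∀ {Ω Λ : Set E3} (S : Src Ω) (g : ConHomeo Ω Λ) {lo hi : E3} {P : RCx E3}
  (τ : Tri S g P), P.carrier = Icc lo hi → Nonempty (Am S g lo hi τ)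

/-- the complex for the engine -/
structure Site (S : Src Ω) (g : ConHomeo Ω Λ) (lo hi : E3) (o : ℝ) (J : Finset (Fin 3))
    (Bf : Fin 3 → Set ℝ) where
  lt : ∀ k, lo k < hi k
  pos : 0 < o
  notJ : 2 ∉ J
  /-- the restriction of `g` -/
  gC : ConHomeo (pre g (Icc lo hi)) (Icc lo hi)
  gC_eq : gC.toFun = g.toFun
  /-- the complex -/
  K : RCx E3
  fin : Finite K.ι
  carrier : K.carrier = pre g (Icc lo hi)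
  ball : ConBall 3 (pre g (Icc lo hi)) (pre g (frontier (Icc lo hi)))
  conn : IsPreconnected (pre g (frontier (Icc lo hi)))
  sub : K.Sub (pre g (frontier (Icc lo hi)))
  thin : ∀ c, K.dim c = 3 → ¬ K.cell c ⊆ pre g (frontier (Icc lo hi))
  dim_le : ∀ c, K.dim c ≤ 3
  top : ∀ x ∈ K.carrier, ∃ c, K.dim c = 3 ∧ x ∈ K.cell c
  dimQ : ∀ φ, S.Q.dim φ ≤ 3
  /-- chart constant -/
  M₁ : K.ι → ℝ≥0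
  /-- chart constant of the inverse -/
  M₂ : K.ι → ℝ≥0
  chart : ∀ c, 2 ≤ K.dim c → Chart (K.dim c) (K.cell c) (K.bd c) (M₁ c) (M₂ c)
  same : ∀ j φ c, Same K S.Q j φ → 2 ≤ S.Q.dim φ → S.Q.cell φ ⊆ S.Q.cell c →
    M₁ j * M₂ j ≤ S.M c ^ 2
  osc : ∀ j, ∀ x ∈ K.cell j, ∀ y ∈ K.cell j, dist (g.toFun x) (g.toFun y) ≤ o
  cvx : ∀ j, Convex ℝ (K.cell j)
  inq : ∀ j φ, (K.ocell j ∩ S.Q.cell φ).Nonempty → K.cell j ⊆ S.Q.cell φ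
  /-- the soft cells -/
  fro : Set K.ι
  face : ∀ c ∈ fro, ∀ j, K.cell j ⊆ K.cell c → j ∈ fro
  froU : ∀ c, K.cell c ⊆ pre g (frontier (Icc lo hi)) → c ∈ fro
  lin : ∀ c ∈ fro, Nt.Lin (K.cell c) (K.bd c) fun (k : Fin 3) x => g.toFun x k
  /-- the exceptional values -/
  Z : Set ℝ
  Zfin : Z.Finite
  vert : ∀ x ∈ K.skel 0, ∀ k, g.toFun x k ∈ Z
  one : J = {0, 1} → ∀ c ∈ fro, ∀ x ∈ K.cell c,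
    (x ∈ K.bd c ∨ K.dim c ≤ 1 ∨ ¬ K.cell c ⊆ pre g (frontier (Icc lo hi))) →
    Sole lo hi o J (fun k => Z ∪ Bf k) (g.toFun x)
  free : ∀ j, j ∉ fro → ∃ φ, Same K S.Q j φ
  trk : ∀ φ, (∃ j, j ∉ fro ∧ Same K S.Q j φ) ∨ ∀ j, ∀ x ∈ K.ocell j, x ∈ S.Q.cell φ →
    g.toFun x ∈ interior (Icc lo hi) → j ∈ fro
  deep : ∀ φ, Deep g.toFun (S.Q.cell φ) lo hi (2 * o) → ∃ j, j ∉ fro ∧ Same K S.Q j φ

def SITE : Prop := ∀ {Ω Λ : Set E3} (S : Src Ω) (g : ConHomeo Ω Λ) {lo hi : E3} {o : ℝ}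
  {J : Finset (Fin 3)} {Bf : Fin 3 → Set ℝ} {P : RCx E3} (τ : Tri S g P), Am S g lo hi τ →
  P.carrier = Icc lo hi → P.Sub (frontier (Icc lo hi)) → Fc S → IsOpen Ω → 0 < o →
  (∀ i, lo i + 2 * o ≤ hi i) → 2 ∉ J → S.Osc g.toFun (Icc lo hi) o →
  Rl S g.toFun lo hi J Bf → Nonempty (Site S g lo hi o J Bf)

variable {S : Src Ω} {g : ConHomeo Ω Λ} {lo hi : E3} {o : ℝ} {J : Finset (Fin 3)}
  {Bf : Fin 3 → Set ℝ}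

/-! ### the engine -/

/-- the input structure of the engine -/
def Site.base (Y : Site S g lo hi o J Bf) (A : Fin 3 → Finset ℝ) (L L₀ : Y.K.ι → ℝ≥0)
    (hL : ∀ c j, Y.K.cell j ⊆ Y.K.bd c → Y.K.dim j + 1 = Y.K.dim c → L j ≤ L₀ c) : Wb.Base where
  Ω := pre g (Icc lo hi)
  bd := pre g (frontier (Icc lo hi))
  ball := Y.ball
  K := Y.K
  fin := Y.fin
  U := pre g (frontier (Icc lo hi))
  U_cpt := Y.ball.isCompact_bdry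
  U_loc := Y.ball.locCone_bdry
  U_pre := Y.conn
  bd_sub := Subset.rfl
  cover := by rw [Y.carrier]; exact union_eq_left.2 Y.ball.1
  sub := by rw [inter_eq_right.2 Y.sub.subset_carrier]; exact Y.sub
  thin := Y.thin
  dim_le := Y.dim_le
  top := Y.top
  ι := A 0 ⊕ A 1
  finι := inferInstance
  fam := Sum.isLeft
  M₁ := Y.M₁
  M₂ := Y.M₂
  chart := Y.chart
  L := L
  L₀ := L₀
  L_le := hL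

/-- the number of points of the walls on the wires of a cell -/
noncomputable def Site.cnt (Y : Site S g lo hi o J Bf) (A : Fin 3 → Finset ℝ) (j : Y.K.ι) : ℕ :=
  (pts g lo hi A ∩ Y.K.skel 1 ∩ Y.K.cell j).ncard

/-- admissible levels -/
structure Adm (Y : Site S g lo hi o J Bf) (A : Fin 3 → Finset ℝ) (d : ℝ) : Prop where
  pos : 0 < d
  le : d ≤ o
  nil : ∀ k, k ∉ J → A k = ∅
  far : ∀ k, ∀ t ∈ A k, ∀ z ∈ Y.Z ∪ Bf k, d / 5 < |t - z|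
  ins : ∀ k, ∀ t ∈ A k, lo k + 3 * o < t ∧ t < hi k - 3 * o
  sep : ∀ k, ∀ t ∈ A k, ∀ t' ∈ A k, t ≠ t' → d ≤ 2 * |t - t'|
  gen : ∀ k, ∀ t ∈ A k, Gen1 Y.K {x ∈ pre g (Icc lo hi) | g.toFun x k = t}
  gen₂ : ∀ t ∈ A 0, ∀ t' ∈ A 1,
    Disjoint {x ∈ pre g (Icc lo hi) | g.toFun x 0 = t ∧ g.toFun x 1 = t'} (Y.K.skel 1) ∧
    ({x ∈ pre g (Icc lo hi) | g.toFun x 0 = t ∧ g.toFun x 1 = t'} ∩ Y.K.skel 2).Finite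

/-- the natural bands -/
def RAW : Prop := ∀ {Ω Λ : Set E3} {S : Src Ω} {g : ConHomeo Ω Λ} {lo hi : E3} {o : ℝ}
  {J : Finset (Fin 3)} {Bf : Fin 3 → Set ℝ} (Y : Site S g lo hi o J Bf) (A : Fin 3 → Finset ℝ)
  (d : ℝ) (L L₀ : Y.K.ι → ℝ≥0)
  (hL : ∀ c j, Y.K.cell j ⊆ Y.K.bd c → Y.K.dim j + 1 = Y.K.dim c → L j ≤ L₀ c) (c₀ lam : ℝ≥0),
  Adm Y A d → (lam : ℝ) = d / 20 →
  (∀ c ∈ Y.fro, LipschitzOnWith (lam * L c) g.toFun (Y.K.cell c)) →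
  (∀ c, 2 ≤ Y.K.dim c → c ∉ Y.fro → c₀ * Y.M₁ c * (Y.M₂ c * L₀ c + Y.cnt A c) ≤ L c) →
  (⋃ i, Wb.lvl (X := Y.base A L L₀ hL) Y.gC (lv A) i) = pts g lo hi A ∧
    ∃ w, Wf.RawF (Y.base A L L₀ hL) c₀ Y.gC (lv A) lam Y.fro w

/-- the affine chart of a marked face -/
structure Sqf (Y : Site S g lo hi o J Bf) (θ : ℝ) (φ : S.Q.ι) (ψ : E2 →ᵃ[ℝ] E3) (a : ℝ)
    (j : Y.K.ι) (χ : ConHomeo (Y.K.cell j) Fi.Q) : Prop where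
  same : Same Y.K S.Q j φ
  inv : ∀ v ∈ Fi.Q, χ.invFun v = ψ v
  free : ∀ e, Y.K.cell e ⊆ Y.K.cell j → e ∉ Y.fro
  bd : χ.toFun '' Y.K.bd j = Fi.Sq
  lip : LipschitzOnWith (Y.M₁ j) χ.toFun (Y.K.cell j)
  lip' : LipschitzOnWith (Y.M₂ j) χ.invFun Fi.Q
  corner : ∀ x ∈ Y.K.cell j, |χ.toFun x 0| = 1 → |χ.toFun x 1| = 1 → x ∈ Y.K.skel 0
  wire : ∀ e, Y.K.dim e = 1 → Y.K.cell e ⊆ Y.K.cell j → ∃ x y e', Same Y.K S.Q e e' ∧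
    Y.K.cell e = segment ℝ x y ∧ lat g.toFun x y ≤ ENNReal.ofReal ((1 + θ) * (2 * a)) ∧
    LipschitzOnWith (nndist x y / 2) χ.invFun (χ.toFun '' Y.K.cell e)

def SQR : Prop := ∀ {Ω Λ : Set E3} {S : Src Ω} {g : ConHomeo Ω Λ} {lo hi : E3} {o : ℝ}
  {J : Finset (Fin 3)} {Bf : Fin 3 → Set ℝ} (Y : Site S g lo hi o J Bf) {θ a : ℝ} {φ : S.Q.ι}
  {ψ : E2 →ᵃ[ℝ] E3}, Marked S g.toFun θ φ ψ a → Deep g.toFun (S.Q.cell φ) lo hi (2 * o) →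
  ∃ (j : Y.K.ι) (χ : ConHomeo (Y.K.cell j) Fi.Q), Sqf Y θ φ ψ a j χ

/-- `B` bounds the slopes on the wires of the face `j` -/
def Wir (Y : Site S g lo hi o J Bf) (θ : ℝ) (A : Fin 3 → Finset ℝ) (d : ℝ) (j : Y.K.ι)
    (B : ℝ≥0) : Prop := ∀ e, Y.K.dim e = 1 → Y.K.cell e ⊆ Y.K.cell j →
  (e ∈ Y.fro → 20 * lipc g.toFun (Y.K.cell e) ≤ B) ∧
  (e ∉ Y.fro → ∀ x y, Y.K.cell e = segment ℝ x y → 32 * d * Y.cnt A e ≤ θ * B * dist x y)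

/-- the output of the engine, `H` is the staircase of `G` -/
structure Eng (Y : Site S g lo hi o J Bf) (p c θ : ℝ) (c' : ℝ≥0) (A : Fin 3 → Finset ℝ) (d : ℝ)
    (𝓢 : Set S.Q.ι) (ψ : S.Q.ι → (E2 →ᵃ[ℝ] E3)) (a : S.Q.ι → ℝ) (H : E3 → E3) : Prop where
  flat : ∀ x y, H x 2 = H y 2
  soft : ∀ j ∈ Y.fro, lipc H (Y.K.cell j) ≤ 40 * lipc g.toFun (Y.K.cell j)
  wire : ∀ j x y, Y.K.dim j = 1 → j ∉ Y.fro → Y.K.cell j = segment ℝ x y →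
    (∀ u ∈ Y.K.cell j, ∀ w ∈ Y.K.cell j, (|H u 0 - H w 0| + |H u 1 - H w 1|) * dist x y ≤
      d * Y.cnt A j * (1 + θ / 4) * dist u w) ∧
    |H y 0 - H x 0| + |H y 1 - H x 1| ≤ d * Y.cnt A j
  face : ∀ j (B : ℝ≥0), Y.K.dim j = 2 → j ∉ Y.fro → Wir Y θ A d j B →
    lipc H (Y.K.cell j) ≤
      ENNReal.ofReal (c' / θ * Y.M₁ j * (Y.M₂ j * B + d * Y.cnt A j + d))
  cell : ∀ j (B : ℝ≥0), Y.K.dim j = 3 → j ∉ Y.fro →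
    (∀ f, Y.K.dim f = 2 → Y.K.cell f ⊆ Y.K.cell j →
      (f ∈ Y.fro → 20 * lipc g.toFun (Y.K.cell f) ≤ B) ∧
      (f ∉ Y.fro → ∃ B' : ℝ≥0, Wir Y θ A d f B' ∧
        c' / θ * Y.M₁ f * (Y.M₂ f * B' + d * Y.cnt A f + d) ≤ B)) →
    lipc H (Y.K.cell j) ≤ ENNReal.ofReal (2 * c' * Y.M₁ j * (Y.M₂ j * B + d))
  sharp : ∀ φ ∈ 𝓢, Deep g.toFun (S.Q.cell φ) lo hi (2 * o) →
    SharpF p H (ψ φ) (a φ) (2 * θ) c 0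

/-- the step height is small for the marked faces -/
def Fit (Y : Site S g lo hi o J Bf) (θ : ℝ) (A : Fin 3 → Finset ℝ) (d : ℝ) (𝓢 : Set S.Q.ι)
    (a : S.Q.ι → ℝ) : Prop := ∀ φ ∈ 𝓢, Deep g.toFun (S.Q.cell φ) lo hi (2 * o) →
  d ≤ θ * a φ ∧ ∀ e, Y.K.dim e = 1 → Y.K.cell e ⊆ S.Q.cell φ →
    d * Y.cnt A e * (1 + θ / 4) ≤ 2 * a φ * (1 + 3 * θ)

def ENG (p : ℝ) : Prop := ∃ (c : ℝ) (c' : ℝ≥0), 1 ≤ c ∧ ∀ {Ω Λ : Set E3} {S : Src Ω}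
  {g : ConHomeo Ω Λ} {lo hi : E3} {o : ℝ} {J : Finset (Fin 3)} {Bf : Fin 3 → Set ℝ}
  (Y : Site S g lo hi o J Bf) {θ : ℝ}
  (A : Fin 3 → Finset ℝ) (d : ℝ) (b : E3) (𝓢 : Set S.Q.ι) (ψ : S.Q.ι → (E2 →ᵃ[ℝ] E3))
  (a : S.Q.ι → ℝ), 0 < θ → θ ≤ 1 / 1000 → Adm Y A d →
  (∀ φ ∈ 𝓢, Marked S g.toFun θ φ (ψ φ) (a φ)) → Fit Y θ A d 𝓢 a →
  ∃ G : ConHomeo (pre g (Icc lo hi)) (Icc lo hi),
    EqOn G.toFun g.toFun (pre g (frontier (Icc lo hi))) ∧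
    (∀ x ∈ pre g (Icc lo hi), ∃ y ∈ Icc lo hi, dist y (g.toFun x) ≤ o ∧
      ∀ k, Drf (A k) o d (y k) (G.toFun x k)) ∧
    Eng Y p c θ c' A d 𝓢 ψ a (cmp (fun k y => b k + stp (A k) d y) G.toFun)

/-! ### the choice of the levels, estimates -/

/-- few points on the wires -/
def Few (Y : Site S g lo hi o J Bf) (A : Fin 3 → Finset ℝ) (d ϑ s : ℝ) : Prop :=
  ∀ e x y, S.Q.cell e = segment ℝ x y → S.Q.cell e ⊆ Y.K.skel 1 →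
    (pts g lo hi A ∩ S.Q.cell e).Finite ∧
    ENNReal.ofReal d * ((pts g lo hi A ∩ S.Q.cell e).ncard : ℕ) ≤
      ENNReal.ofReal (1 + ϑ) * lat g.toFun x y + ENNReal.ofReal s

def PICK : Prop := ∀ ϑ : ℝ, 0 < ϑ → ϑ ≤ 1 → ∃ K : ℝ, 1 ≤ K ∧ ∀ {Ω Λ : Set E3} {S : Src Ω}
  {g : ConHomeo Ω Λ} {lo hi : E3} {o : ℝ} {J : Finset (Fin 3)} {Bf : Fin 3 → Set ℝ}
  (Y : Site S g lo hi o J Bf) (s d₁ : ℝ), (∀ k, Thin (Bf k) o (4 * ϑ)) → 0 < s → 0 < d₁ →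
  ∃ (A : Fin 3 → Finset ℝ) (d : ℝ), d ≤ d₁ ∧ Adm Y A d ∧
    (∀ k ∈ J, Levs (lo k) (hi k) o d ϑ K (Y.Z ∪ Bf k) (A k)) ∧ Few Y A d ϑ s

/-- the estimates for the degenerate limit `H` -/
structure Est (Y : Site S g lo hi o J Bf) (p c θ ϑ : ℝ) (CM : ℝ≥0 → ℝ≥0) (s : ℝ≥0)
    (𝓢 : Set S.Q.ι) (ψ : S.Q.ι → (E2 →ᵃ[ℝ] E3)) (a : S.Q.ι → ℝ) (H : E3 → E3) : Prop where
  soft : ∀ j ∈ Y.fro, lipc H (Y.K.cell j) ≤ 40 * lipc g.toFun (Y.K.cell j)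
  wire : ∀ e j, S.Q.dim e = 1 → j ∉ Y.fro → Same Y.K S.Q j e →
    lipc H (S.Q.cell e) ≤ 4 * lipc g.toFun (S.Q.cell e) + s ∧
    ∀ x y, S.Q.cell e = segment ℝ x y → SharpE g.toFun H x y θ s ∧ Rise g.toFun H x y ϑ s
  face : ∀ φ j, S.Q.dim φ = 2 → j ∉ Y.fro → Same Y.K S.Q j φ →
    lipc H (S.Q.cell φ) ≤ CM (S.M φ) * S.A g.toFun φ + s
  cell : ∀ φ j, S.Q.dim φ = 3 → j ∉ Y.fro → Same Y.K S.Q j φ →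
    lipc H (S.Q.cell φ) ≤ CM (S.M φ) * (lipc g.toFun (S.Q.cell φ) + S.A g.toFun φ) + s ∧
    (Deep g.toFun (S.Q.cell φ) lo hi (2 * o) →
      lipc H (S.Q.cell φ) ≤ CM (S.M φ) * S.A g.toFun φ + s)
  sharp : ∀ φ ∈ 𝓢, Deep g.toFun (S.Q.cell φ) lo hi (2 * o) →
    SharpF p H (ψ φ) (a φ) (2 * θ) c 0

def EST : Prop := ∀ (θ : ℝ) (c' : ℝ≥0), 0 < θ → θ ≤ 1 / 1000 → ∃ CM : ℝ≥0 → ℝ≥0,
  ∀ {Ω Λ : Set E3} {S : Src Ω} {g : ConHomeo Ω Λ} {lo hi : E3} {o : ℝ} {J : Finset (Fin 3)}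
  {Bf : Fin 3 → Set ℝ} (Y : Site S g lo hi o J Bf) {ϑ : ℝ} (s : ℝ≥0) (𝓢 : Set S.Q.ι)
  (ψ : S.Q.ι → (E2 →ᵃ[ℝ] E3)) (a : S.Q.ι → ℝ), 0 < ϑ → ϑ ≤ θ → 0 < s →
  (∀ φ ∈ 𝓢, Marked S g.toFun θ φ (ψ φ) (a φ)) →
  ∃ s₁ : ℝ, 0 < s₁ ∧ ∀ (A : Fin 3 → Finset ℝ) (d : ℝ), d ≤ s₁ → Adm Y A d →
    Few Y A d (ϑ / 4) s₁ → Fit Y θ A d 𝓢 a ∧
      ∀ (p c : ℝ) (H : E3 → E3), Eng Y p c θ c' A d 𝓢 ψ a H → Est Y p c θ ϑ CM s 𝓢 ψ a H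

/-- the first half -/
def ST1 (p : ℝ) : Prop := ∃ c : ℝ, 1 ≤ c ∧ ∀ θ : ℝ, 0 < θ → θ ≤ 1 / 1000 →
  ∃ CM : ℝ≥0 → ℝ≥0, ∀ ϑ : ℝ, 0 < ϑ → ϑ ≤ θ → ∃ K : ℝ≥0, 1 ≤ K ∧
  ∀ {Ω Λ : Set E3} {S : Src Ω} {g : ConHomeo Ω Λ} {lo hi : E3} {o : ℝ} {J : Finset (Fin 3)}
  {Bf : Fin 3 → Set ℝ} (Y : Site S g lo hi o J Bf) (s : ℝ≥0) (𝓢 : Set S.Q.ι)
  (ψ : S.Q.ι → (E2 →ᵃ[ℝ] E3)) (a : S.Q.ι → ℝ), (∀ k, Thin (Bf k) o ϑ) → 0 < s →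
  (∀ φ ∈ 𝓢, Marked S g.toFun θ φ (ψ φ) (a φ)) →
  ∃ (G : ConHomeo (pre g (Icc lo hi)) (Icc lo hi)) (ξ : Fin 3 → ℝ → ℝ),
    Prof g lo hi J (K * o) G ξ ∧ Est Y p c θ ϑ CM s 𝓢 ψ a (cmp ξ G.toFun)

/-! ### the second half -/

/-- wires, faces and cells -/
def FINB : Prop := ∀ (C₁ : ℝ≥0) (CM₁ : ℝ≥0 → ℝ≥0), ∃ (C : ℝ≥0) (CM : ℝ≥0 → ℝ≥0),
  C₁ ≤ C ∧ ∀ {Ω Λ : Set E3} {S : Src Ω} {g : ConHomeo Ω Λ} {lo hi : E3} {o : ℝ}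
  {J : Finset (Fin 3)} {Bf : Fin 3 → Set ℝ} (Y : Site S g lo hi o J Bf) (s : ℝ≥0)
  {p c θ ϑ : ℝ} {𝓢 : Set S.Q.ι} {ψ : S.Q.ι → (E2 →ᵃ[ℝ] E3)} {a : S.Q.ι → ℝ} {H h D : E3 → E3},
  Est Y p c θ ϑ CM₁ s 𝓢 ψ a H → Pert g lo hi C₁ s H h D →
  Res C CM S g.toFun h lo hi o (2 * s)

/-- the sharp clauses -/
def FINC (p : ℝ) : Prop := ∀ {Ω Λ : Set E3} {S : Src Ω} {g : ConHomeo Ω Λ} {lo hi : E3} {o : ℝ}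
  {J : Finset (Fin 3)} {Bf : Fin 3 → Set ℝ} (Y : Site S g lo hi o J Bf) (η : ℝ≥0∞) {c θ : ℝ}
  (𝓢 : Set S.Q.ι) (ψ : S.Q.ι → (E2 →ᵃ[ℝ] E3)) (a : S.Q.ι → ℝ), 0 < η → 0 < θ → 0 ≤ c →
  (∀ φ ∈ 𝓢, Marked S g.toFun θ φ (ψ φ) (a φ)) → ∃ s₀ : ℝ≥0, 0 < s₀ ∧
  ∀ s, s ≤ s₀ → ∀ {ϑ : ℝ} {C₁ : ℝ≥0} {CM₁ : ℝ≥0 → ℝ≥0} {H h D : E3 → E3},
    Est Y p c θ ϑ CM₁ s 𝓢 ψ a H → Pert g lo hi C₁ s H h D →
    Shc p (4 * c) θ ϑ S g.toFun h lo hi o η 𝓢 ψ a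

end P073.St3
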